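import Mathlib

/-!
# P148, module T: fair colours on a finite set (basics, Harris inequality)

`ex f` is the mean of `f` over all colourings `V → Bool` of a finite set `V`, `pr p` the
probability of `p`.
-/

open Finset
open scoped Classical

namespace Vale.Agent.P148.R2.H953

variable {V : Type*} [Fintype V]

set_option linter.unusedSectionVars false

/-- Mean over all colourings. -/
noncomputable def ex (f : (V → Bool) → ℝ) : ℝ := (∑ σ, f σ) / 2 ^ Fintype.card V

/-- Probability of an event. -/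
noncomputable def pr (p : (V → Bool) → Prop) : ℝ := ex fun σ => if p σ then 1 else 0

theorem card_pos : (0 : ℝ) < 2 ^ Fintype.card V := by positivity

theorem ex_const (c : ℝ) : ex (fun _ : V → Bool => c) = c := by
  unfold ex
  rw [sum_const, card_univ, Fintype.card_fun, Fintype.card_bool, nsmul_eq_mul]
  push_cast
  rw [mul_div_assoc, mul_comm, div_mul_cancel₀]
  positivity

theorem ex_add (f g : (V → Bool) → ℝ) : ex (fun σ => f σ + g σ) = ex f + ex g := by
  unfold ex
  rw [sum_add_distrib, add_div]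

theorem ex_sub (f g : (V → Bool) → ℝ) : ex (fun σ => f σ - g σ) = ex f - ex g := by
  unfold ex
  rw [sum_sub_distrib, sub_div]

theorem ex_neg (f : (V → Bool) → ℝ) : ex (fun σ => - f σ) = - ex f := by
  unfold ex
  rw [sum_neg_distrib, neg_div]

theorem ex_smul (c : ℝ) (f : (V → Bool) → ℝ) : ex (fun σ => c * f σ) = c * ex f := by
  unfold ex
  rw [← mul_sum, mul_div_assoc]

theorem ex_mul_const (c : ℝ) (f : (V → Bool) → ℝ) : ex (fun σ => f σ * c) = ex f * c := by
  simp only [mul_comm _ c, ex_smul]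

theorem ex_sum {ι : Type*} (s : Finset ι) (f : ι → (V → Bool) → ℝ) :
    ex (fun σ => ∑ i ∈ s, f i σ) = ∑ i ∈ s, ex (f i) := by
  unfold ex
  rw [sum_comm, sum_div]

theorem ex_mono {f g : (V → Bool) → ℝ} (h : ∀ σ, f σ ≤ g σ) : ex f ≤ ex g :=
  div_le_div_of_nonneg_right (sum_le_sum fun σ _ => h σ) card_pos.le

theorem ex_nonneg {f : (V → Bool) → ℝ} (h : ∀ σ, 0 ≤ f σ) : 0 ≤ ex f :=
  div_nonneg (sum_nonneg fun σ _ => h σ) card_pos.le

theorem ex_congr {f g : (V → Bool) → ℝ} (h : ∀ σ, f σ = g σ) : ex f = ex g := by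
  rw [funext h]

theorem ex_comm {W : Type*} [Fintype W] (f : (V → Bool) → (W → Bool) → ℝ) :
    ex (fun σ => ex (fun ρ => f σ ρ)) = ex (fun ρ => ex (fun σ => f σ ρ)) := by
  unfold ex
  simp only [sum_div]
  rw [sum_comm]
  refine sum_congr rfl fun σ _ => sum_congr rfl fun ρ _ => ?_
  ring

/-- A bijection of the colourings preserves the mean. -/
theorem ex_equiv (e : (V → Bool) ≃ (V → Bool)) (f : (V → Bool) → ℝ) :
    ex (fun σ => f (e σ)) = ex f := by
  unfold ex
  rw [Equiv.sum_comp e f]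

theorem ex_invol {e : (V → Bool) → (V → Bool)} (he : Function.Involutive e)
    (f : (V → Bool) → ℝ) : ex (fun σ => f (e σ)) = ex f :=
  ex_equiv he.toPerm f

/-- Cauchy–Schwarz. -/
theorem ex_mul_sq_le (f g : (V → Bool) → ℝ) :
    ex (fun σ => f σ * g σ) ^ 2 ≤ ex (fun σ => f σ ^ 2) * ex (fun σ => g σ ^ 2) := by
  unfold ex
  rw [div_pow, div_mul_div_comm, ← sq]
  exact div_le_div_of_nonneg_right (sum_mul_sq_le_sq_mul_sq _ _ _) (by positivity)

theorem sq_ex_le (f : (V → Bool) → ℝ) : ex f ^ 2 ≤ ex (fun σ => f σ ^ 2) := by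
  have := ex_mul_sq_le f (fun _ => 1)
  simpa [ex_const] using this

/-! ### Probabilities -/

theorem pr_eq_card (p : (V → Bool) → Prop) :
    pr p = (Nat.card {σ // p σ} : ℝ) / 2 ^ Fintype.card V := by
  unfold pr ex
  rw [sum_boole, Nat.card_eq_fintype_card, Fintype.card_subtype]

theorem pr_nonneg (p : (V → Bool) → Prop) : 0 ≤ pr p :=
  ex_nonneg fun σ => by split_ifs <;> norm_num

theorem pr_mono {p q : (V → Bool) → Prop} (h : ∀ σ, p σ → q σ) : pr p ≤ pr q := by
  refine ex_mono fun σ => ?_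
  by_cases hp : p σ
  · rw [if_pos hp, if_pos (h σ hp)]
  · rw [if_neg hp]; split_ifs <;> norm_num

theorem pr_congr {p q : (V → Bool) → Prop} (h : ∀ σ, p σ ↔ q σ) : pr p = pr q := by
  rw [funext fun σ => propext (h σ)]

theorem pr_true : pr (fun _ : V → Bool => True) = 1 := by
  unfold pr
  simp [ex_const]

theorem pr_false : pr (fun _ : V → Bool => False) = 0 := by
  unfold pr
  simp [ex_const]

theorem pr_le_one (p : (V → Bool) → Prop) : pr p ≤ 1 := by
  rw [← pr_true (V := V)]
  exact pr_mono fun _ _ => trivial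

theorem pr_not (p : (V → Bool) → Prop) : pr (fun σ => ¬ p σ) = 1 - pr p := by
  have h := ex_sub (fun _ : V → Bool => (1 : ℝ)) (fun σ => if p σ then 1 else 0)
  rw [ex_const] at h
  unfold pr
  rw [← h]
  refine ex_congr fun σ => ?_
  by_cases hp : p σ
  · rw [if_pos hp, if_neg (not_not.2 hp)]; ring
  · rw [if_neg hp, if_pos hp]; ring

theorem pr_or_le (p q : (V → Bool) → Prop) : pr (fun σ => p σ ∨ q σ) ≤ pr p + pr q := by
  unfold pr
  rw [← ex_add]
  refine ex_mono fun σ => ?_
  by_cases hp : p σ <;> by_cases hq : q σ <;> simp [hp, hq]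

theorem pr_exists_le {ι : Type*} (s : Finset ι) (p : ι → (V → Bool) → Prop) :
    pr (fun σ => ∃ i ∈ s, p i σ) ≤ ∑ i ∈ s, pr (p i) := by
  classical
  unfold pr
  rw [← ex_sum]
  refine ex_mono fun σ => ?_
  by_cases h : ∃ i ∈ s, p i σ
  · rw [if_pos h]
    obtain ⟨i, hi, hp⟩ := h
    calc (1 : ℝ) = (if p i σ then (1 : ℝ) else 0) := by rw [if_pos hp]
      _ ≤ _ := single_le_sum (f := fun i => if p i σ then (1 : ℝ) else 0)
          (fun j _ => by split_ifs <;> norm_num) hi
  · rw [if_neg h]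
    exact sum_nonneg fun j _ => by split_ifs <;> norm_num

theorem pr_and_add (p q : (V → Bool) → Prop) :
    pr (fun σ => p σ ∧ q σ) + pr (fun σ => p σ ∧ ¬ q σ) = pr p := by
  unfold pr
  rw [← ex_add]
  refine ex_congr fun σ => ?_
  by_cases hp : p σ <;> by_cases hq : q σ <;> simp [hp, hq]

/-- Markov's inequality. -/
theorem mul_pr_le {f : (V → Bool) → ℝ} (hf : ∀ σ, 0 ≤ f σ) (a : ℝ) :
    a * pr (fun σ => a ≤ f σ) ≤ ex f := by
  unfold pr
  rw [← ex_smul]
  refine ex_mono fun σ => ?_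
  split_ifs with h
  · rw [mul_one]; exact h
  · rw [mul_zero]; exact hf σ

theorem pr_equiv (e : (V → Bool) ≃ (V → Bool)) (p : (V → Bool) → Prop) :
    pr (fun σ => p (e σ)) = pr p := ex_equiv e fun σ => if p σ then 1 else 0

theorem pr_invol {e : (V → Bool) → (V → Bool)} (he : Function.Involutive e)
    (p : (V → Bool) → Prop) : pr (fun σ => p (e σ)) = pr p := pr_equiv he.toPerm p

/-! ### Flips -/

/-- Flip the colours on `S`. -/
noncomputable def flip (S : V → Prop) (σ : V → Bool) : V → Bool :=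
  fun v => if S v then !σ v else σ v

theorem flip_invol (S : V → Prop) : Function.Involutive (flip S) := by
  intro σ
  funext v
  unfold flip
  split_ifs <;> simp

theorem ex_flip (S : V → Prop) (f : (V → Bool) → ℝ) :
    ex (fun σ => f (flip S σ)) = ex f := ex_invol (flip_invol S) f

theorem pr_flip (S : V → Prop) (p : (V → Bool) → Prop) :
    pr (fun σ => p (flip S σ)) = pr p := pr_invol (flip_invol S) p

/-- Global flip. -/
theorem not_invol : Function.Involutive (fun (σ : V → Bool) v => !σ v) := by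
  intro σ; funext v; simp

theorem ex_not (f : (V → Bool) → ℝ) : ex (fun σ => f (fun v => !σ v)) = ex f :=
  ex_invol not_invol f

theorem pr_not_col (p : (V → Bool) → Prop) : pr (fun σ => p (fun v => !σ v)) = pr p :=
  pr_invol not_invol p

/-! ### Harris inequality -/

/-- **Harris inequality**: increasing functions are positively correlated. -/
theorem harris {f g : (V → Bool) → ℝ} (hf : Monotone f) (hg : Monotone g) :
    ex f * ex g ≤ ex fun σ => f σ * g σ := by
  -- reduce to nonnegative functions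
  have key : ∀ {f g : (V → Bool) → ℝ}, Monotone f → Monotone g → 0 ≤ f → 0 ≤ g →
      ex f * ex g ≤ ex fun σ => f σ * g σ := by
    intro f g hf hg hf0 hg0
    have h := fkg (α := V → Bool) (β := ℝ) (μ := fun _ => 1) (f := f) (g := g)
      (fun _ => zero_le_one) hf0 hg0 hf hg (fun a b => by simp)
    simp only [one_mul, sum_const, card_univ, Fintype.card_fun, Fintype.card_bool, nsmul_eq_mul,
      mul_one] at h
    push_cast at h
    unfold ex
    rw [div_mul_div_comm, div_le_div_iff₀ (by positivity) (by positivity)]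
    calc (∑ σ, f σ) * (∑ σ, g σ) * 2 ^ Fintype.card V
        ≤ (2 ^ Fintype.card V * ∑ σ, f σ * g σ) * 2 ^ Fintype.card V :=
          mul_le_mul_of_nonneg_right h (by positivity)
      _ = (∑ σ, f σ * g σ) * (2 ^ Fintype.card V * 2 ^ Fintype.card V) := by ring
  set a := f ⊥ with ha
  set b := g ⊥ with hb
  have h1 := key (f := fun σ => f σ - a) (g := fun σ => g σ - b)
    (fun x y h => sub_le_sub_right (hf h) _) (fun x y h => sub_le_sub_right (hg h) _)
    (fun σ => sub_nonneg.2 (hf bot_le)) (fun σ => sub_nonneg.2 (hg bot_le))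
  rw [ex_sub, ex_sub, ex_const, ex_const] at h1
  have h2 : ex (fun σ => (f σ - a) * (g σ - b)) =
      ex (fun σ => f σ * g σ) - b * ex f - a * ex g + a * b := by
    rw [← ex_smul, ← ex_smul, ← ex_sub, ← ex_sub]
    conv_rhs => rw [← ex_const (V := V) (a * b), ← ex_add]
    exact ex_congr fun σ => by ring
  rw [h2] at h1
  linarith [h1]

theorem harris_anti {f g : (V → Bool) → ℝ} (hf : Antitone f) (hg : Antitone g) :
    ex f * ex g ≤ ex fun σ => f σ * g σ := by
  have h := harris (f := fun σ => - f σ) (g := fun σ => - g σ)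
    (fun x y hxy => neg_le_neg (hf hxy)) (fun x y hxy => neg_le_neg (hg hxy))
  rw [ex_neg, ex_neg] at h
  simpa using h

theorem harris_mixed {f g : (V → Bool) → ℝ} (hf : Monotone f) (hg : Antitone g) :
    (ex fun σ => f σ * g σ) ≤ ex f * ex g := by
  have h := harris (f := f) (g := fun σ => - g σ) hf (fun x y hxy => neg_le_neg (hg hxy))
  rw [ex_neg] at h
  have h2 : ex (fun σ => f σ * - g σ) = - ex (fun σ => f σ * g σ) := by
    rw [← ex_neg]; exact ex_congr fun σ => by ring
  rw [h2] at h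
  linarith

/-- An event is increasing when it is preserved by turning more vertices black (`true`). -/
def Inc (p : (V → Bool) → Prop) : Prop := ∀ ⦃σ ρ : V → Bool⦄, σ ≤ ρ → p σ → p ρ

/-- Decreasing events. -/
def Dec (p : (V → Bool) → Prop) : Prop := ∀ ⦃σ ρ : V → Bool⦄, σ ≤ ρ → p ρ → p σ

theorem inc_iff (p : (V → Bool) → Prop) :
    Inc p ↔ ∀ σ ρ : V → Bool, (∀ v, σ v = true → ρ v = true) → p σ → p ρ := by
  constructor
  · intro h σ ρ h1 h2
    exact h (fun v => Bool.le_iff_imp.2 (h1 v)) h2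
  · intro h σ ρ h1 h2
    exact h σ ρ (fun v => Bool.le_iff_imp.1 (h1 v)) h2

theorem dec_iff (p : (V → Bool) → Prop) :
    Dec p ↔ ∀ σ ρ : V → Bool, (∀ v, σ v = false → ρ v = false) → p σ → p ρ := by
  have hb : ∀ a b : Bool, (a = false → b = false) → b ≤ a := by decide
  have hb' : ∀ a b : Bool, b ≤ a → (a = false → b = false) := by decide
  constructor
  · intro h σ ρ h1 h2
    exact h (fun v => hb _ _ (h1 v)) h2
  · intro h σ ρ h1 h2
    exact h ρ σ (fun v => hb' _ _ (h1 v)) h2

theorem Inc.and {p q : (V → Bool) → Prop} (hp : Inc p) (hq : Inc q) :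
    Inc fun σ => p σ ∧ q σ := fun _ _ h h2 => ⟨hp h h2.1, hq h h2.2⟩

theorem Inc.or {p q : (V → Bool) → Prop} (hp : Inc p) (hq : Inc q) :
    Inc fun σ => p σ ∨ q σ := fun _ _ h h2 => h2.imp (hp h) (hq h)

theorem Dec.and {p q : (V → Bool) → Prop} (hp : Dec p) (hq : Dec q) :
    Dec fun σ => p σ ∧ q σ := fun _ _ h h2 => ⟨hp h h2.1, hq h h2.2⟩

theorem Dec.or {p q : (V → Bool) → Prop} (hp : Dec p) (hq : Dec q) :
    Dec fun σ => p σ ∨ q σ := fun _ _ h h2 => h2.imp (hp h) (hq h)

theorem Inc.not {p : (V → Bool) → Prop} (hp : Inc p) : Dec fun σ => ¬ p σ :=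
  fun _ _ h h2 h3 => h2 (hp h h3)

theorem Dec.not {p : (V → Bool) → Prop} (hp : Dec p) : Inc fun σ => ¬ p σ :=
  fun _ _ h h2 h3 => h2 (hp h h3)

theorem Inc.forall {ι : Sort*} {p : ι → (V → Bool) → Prop} (h : ∀ i, Inc (p i)) :
    Inc fun σ => ∀ i, p i σ := fun _ _ h1 h2 i => h i h1 (h2 i)

theorem Inc.exists {ι : Sort*} {p : ι → (V → Bool) → Prop} (h : ∀ i, Inc (p i)) :
    Inc fun σ => ∃ i, p i σ := fun _ _ h1 ⟨i, h2⟩ => ⟨i, h i h1 h2⟩

theorem Dec.forall {ι : Sort*} {p : ι → (V → Bool) → Prop} (h : ∀ i, Dec (p i)) :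
    Dec fun σ => ∀ i, p i σ := fun _ _ h1 h2 i => h i h1 (h2 i)

theorem Dec.exists {ι : Sort*} {p : ι → (V → Bool) → Prop} (h : ∀ i, Dec (p i)) :
    Dec fun σ => ∃ i, p i σ := fun _ _ h1 ⟨i, h2⟩ => ⟨i, h i h1 h2⟩

/-- The global flip exchanges increasing and decreasing events. -/
theorem Dec.flip {p : (V → Bool) → Prop} (h : Dec p) : Inc fun σ => p (fun v => !σ v) := by
  rw [inc_iff]
  intro σ ρ h1 h2
  refine (dec_iff p).1 h _ _ (fun v hv => ?_) h2
  simp only [Bool.not_eq_false'] at hv ⊢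
  exact h1 v hv

theorem Inc.flip {p : (V → Bool) → Prop} (h : Inc p) : Dec fun σ => p (fun v => !σ v) := by
  rw [dec_iff]
  intro σ ρ h1 h2
  refine (inc_iff p).1 h _ _ (fun v hv => ?_) h2
  simp only [Bool.not_eq_true'] at hv ⊢
  exact h1 v hv

theorem Inc.monotone {p : (V → Bool) → Prop} (h : Inc p) :
    Monotone fun σ : V → Bool => if p σ then (1 : ℝ) else 0 := by
  intro σ ρ hσ
  by_cases h1 : p σ
  · simp [h1, h hσ h1]
  · simp only [if_neg h1]; split_ifs <;> norm_num

theorem Dec.antitone {p : (V → Bool) → Prop} (h : Dec p) :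
    Antitone fun σ : V → Bool => if p σ then (1 : ℝ) else 0 := by
  intro σ ρ hσ
  by_cases h1 : p ρ
  · simp [h1, h hσ h1]
  · simp only [if_neg h1]; split_ifs <;> norm_num

theorem pr_and_eq (p q : (V → Bool) → Prop) :
    pr (fun σ => p σ ∧ q σ) = ex fun σ => (if p σ then (1 : ℝ) else 0) * (if q σ then 1 else 0) := by
  unfold pr
  refine ex_congr fun σ => ?_
  by_cases hp : p σ <;> by_cases hq : q σ <;> simp [hp, hq]

theorem harris_inc {p q : (V → Bool) → Prop} (hp : Inc p) (hq : Inc q) :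
    pr p * pr q ≤ pr fun σ => p σ ∧ q σ := by
  classical
  rw [pr_and_eq]
  have := harris hp.monotone hq.monotone
  unfold pr
  convert this

theorem harris_dec {p q : (V → Bool) → Prop} (hp : Dec p) (hq : Dec q) :
    pr p * pr q ≤ pr fun σ => p σ ∧ q σ := by
  classical
  rw [pr_and_eq]
  have := harris_anti hp.antitone hq.antitone
  unfold pr
  convert this

theorem harris_inc_dec {p q : (V → Bool) → Prop} (hp : Inc p) (hq : Dec q) :
    (pr fun σ => p σ ∧ q σ) ≤ pr p * pr q := by
  classical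
  rw [pr_and_eq]
  have := harris_mixed hp.monotone hq.antitone
  unfold pr
  convert this

/-- Harris for finitely many increasing events. -/
theorem harris_forall_inc {ι : Type*} (s : Finset ι) {p : ι → (V → Bool) → Prop}
    (hp : ∀ i ∈ s, Inc (p i)) : ∏ i ∈ s, pr (p i) ≤ pr fun σ => ∀ i ∈ s, p i σ := by
  classical
  induction s using Finset.induction_on with
  | empty => simp [pr_true]
  | insert a s ha ih =>
    rw [prod_insert ha]
    have h1 := ih fun i hi => hp i (mem_insert_of_mem hi)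
    have h2 := harris_inc (hp a (mem_insert_self a s))
      (Inc.forall fun i => Inc.forall fun hi : i ∈ s => hp i (mem_insert_of_mem hi))
    calc pr (p a) * ∏ i ∈ s, pr (p i) ≤ pr (p a) * pr (fun σ => ∀ i ∈ s, p i σ) :=
          mul_le_mul_of_nonneg_left h1 (pr_nonneg _)
      _ ≤ _ := h2
      _ = _ := pr_congr fun σ => by simp

/-- Harris for finitely many decreasing events. -/
theorem harris_forall_dec {ι : Type*} (s : Finset ι) {p : ι → (V → Bool) → Prop}
    (hp : ∀ i ∈ s, Dec (p i)) : ∏ i ∈ s, pr (p i) ≤ pr fun σ => ∀ i ∈ s, p i σ := by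
  classical
  induction s using Finset.induction_on with
  | empty => simp [pr_true]
  | insert a s ha ih =>
    rw [prod_insert ha]
    have h1 := ih fun i hi => hp i (mem_insert_of_mem hi)
    have h2 := harris_dec (hp a (mem_insert_self a s))
      (Dec.forall fun i => Dec.forall fun hi : i ∈ s => hp i (mem_insert_of_mem hi))
    calc pr (p a) * ∏ i ∈ s, pr (p i) ≤ pr (p a) * pr (fun σ => ∀ i ∈ s, p i σ) :=
          mul_le_mul_of_nonneg_left h1 (pr_nonneg _)
      _ ≤ _ := h2
      _ = _ := pr_congr fun σ => by simp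

/-- Square-root trick, product form: `∏ (1 - P A_i) ≤ 1 - P (⋃ A_i)` for increasing events. -/
theorem prod_one_sub_le_inc {ι : Type*} (s : Finset ι) {p : ι → (V → Bool) → Prop}
    (hp : ∀ i ∈ s, Inc (p i)) : ∏ i ∈ s, (1 - pr (p i)) ≤ 1 - pr fun σ => ∃ i ∈ s, p i σ := by
  have h := harris_forall_dec s (p := fun i σ => ¬ p i σ) fun i hi => (hp i hi).not
  simp only [pr_not] at h
  refine h.trans (le_of_eq ?_)
  rw [← pr_not]
  exact pr_congr fun σ => by push Not; rfl

theorem prod_one_sub_le_dec {ι : Type*} (s : Finset ι) {p : ι → (V → Bool) → Prop}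
    (hp : ∀ i ∈ s, Dec (p i)) : ∏ i ∈ s, (1 - pr (p i)) ≤ 1 - pr fun σ => ∃ i ∈ s, p i σ := by
  have h := harris_forall_inc s (p := fun i σ => ¬ p i σ) fun i hi => (hp i hi).not
  simp only [pr_not] at h
  refine h.trans (le_of_eq ?_)
  rw [← pr_not]
  exact pr_congr fun σ => by push Not; rfl

/-- **Square-root trick**: if one of `n` increasing events occurs with probability at least
`1 - ε ^ n` then one of them has probability at least `1 - ε`. -/
theorem sqrt_trick_inc {ι : Type*} {s : Finset ι} (hs : s.Nonempty) {p : ι → (V → Bool) → Prop}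
    (hp : ∀ i ∈ s, Inc (p i)) {ε : ℝ} (hε : 0 ≤ ε)
    (h : 1 - ε ^ s.card ≤ pr fun σ => ∃ i ∈ s, p i σ) : ∃ i ∈ s, 1 - ε ≤ pr (p i) := by
  by_contra hcon
  push Not at hcon
  have h1 := prod_one_sub_le_inc s hp
  have h2 : ∏ i ∈ s, ε < ∏ i ∈ s, (1 - pr (p i)) := by
    rcases hε.eq_or_lt with h0 | h0
    · rw [← h0]
      rw [prod_const, zero_pow (Finset.card_ne_zero.2 hs)]
      exact prod_pos fun i hi => by linarith [hcon i hi]
    · exact prod_lt_prod_of_nonempty (fun i _ => h0) (fun i hi => by linarith [hcon i hi]) hs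
  rw [prod_const] at h2
  linarith

theorem sqrt_trick_dec {ι : Type*} {s : Finset ι} (hs : s.Nonempty) {p : ι → (V → Bool) → Prop}
    (hp : ∀ i ∈ s, Dec (p i)) {ε : ℝ} (hε : 0 ≤ ε)
    (h : 1 - ε ^ s.card ≤ pr fun σ => ∃ i ∈ s, p i σ) : ∃ i ∈ s, 1 - ε ≤ pr (p i) := by
  by_contra hcon
  push Not at hcon
  have h1 := prod_one_sub_le_dec s hp
  have h2 : ∏ i ∈ s, ε < ∏ i ∈ s, (1 - pr (p i)) := by
    rcases hε.eq_or_lt with h0 | h0
    · rw [← h0]
      rw [prod_const, zero_pow (Finset.card_ne_zero.2 hs)]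
      exact prod_pos fun i hi => by linarith [hcon i hi]
    · exact prod_lt_prod_of_nonempty (fun i _ => h0) (fun i hi => by linarith [hcon i hi]) hs
  rw [prod_const] at h2
  linarith

end Vale.Agent.P148.R2.H953
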