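import Vale.Agent.P148.R2.H897.CalTime
import Vale.Agent.P148.R2.H251.CalW

/-!
# P148, row CAL: the events of one pattern

`Span` : the span of the class of a dart of the frozen face, `Alt` : the bad alternatives of the
dichotomy, `Clo` : the closed case. `dich_cases` : `Dich` gives one of them. `one_world` : the
calibration inequality of one world from

* `hD` : the dichotomy for the three patterns (897),
* `hA` : the probability of an event in the bad alternatives (219),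
* `hbad` : the arm of `cal3_patt` (530),
* `hU` : the mean of the plane class in the closed case (184),
* `hV` : the chain of the main cycle in the closed case (409).
-/

set_option linter.unusedSectionVars false

open Set Function Relation
open scoped Classical
open Vale.Agent.P148.R2.H258 Vale.Agent.P148.R2.H258.Tri Vale.Agent.P148.R2.H659
  Vale.Agent.P148.R2.H871 Vale.Agent.P148.R2.H592
  Vale.Agent.P148.R2.H184 Vale.Agent.P148.R2.H203 Vale.Agent.P148.R2.H910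
  Vale.Agent.P148.R2.H251 Vale.Agent.P148.R2.H838 Vale.Agent.P148.R2.H897
open Vale.Agent.P148.R2.H400 (TP TB piB secB piB_eq_iff contrB src_TP tgt_TP nbr_dt)

namespace Vale.Agent.P148.R2.H953

/-! ### the three darts of the frozen face -/

section abs

variable {V V1 V3 D : Type*}

/-- The dart of the frozen face `o` whose target is in the class `γ`. -/
def qd (T : Tri V D) (o : D) : Fin 3 → D
  | 0 => o
  | 1 => T.nxt (T.nxt o)
  | 2 => T.nxt o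

/-- The common data of a span: the class of `q` without `q` is `f 1, …, f (m - 1)`, met between the
times `0` and `N` of the strand of `f 1`; its source is `src (c i₁)`, its end `src (c j₁)`. -/
structure Span (T : Tri V D) (T3 : Tri V3 D) (π : V → V1) (O : V1) (c : ℕ → D) (n s₁ s₂ : ℕ)
    (π3 : V → V3) (lab : Fin 3 → V3) (σ : V3 → Bool) (q : D) (α β γ : Fin 3) (m : ℕ) (f : ℕ → D)
    (j₁ i₁ N : ℕ) : Prop where
  path : Path3 T T3 π O c n s₁ s₂ σ q α β m f j₁ i₁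
  last : (T3.st σ)^[N] (f 1) = f (m - 1)
  all : ∀ i, 1 ≤ i → i < m → ∃ k ≤ N, (T3.st σ)^[k] (f 1) = f i
  reach : ∃ i < n, InArc s₁ s₂ n γ i ∧ (T.tgt (f 1) = T.src (c i) ∨
    ∃ u, (∃ e, T.src e = T.src (c i) ∧ T.tgt e = u) ∧
      Joined T (fun v => σ (π3 v)) (σ (lab γ)) {v | π v ≠ O} u (T.tgt (f 1)))

/-- **The bad alternatives**: the span meets the zone `Z'` (black arms), or a free white path joins
the zone `Z` to its white side, or its ends are near each other. -/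
def Alt (T : Tri V D) (T3 : Tri V3 D) (π : V → V1) (O : V1) (c : ℕ → D) (n s₁ s₂ : ℕ)
    (π3 : V → V3) (lab : Fin 3 → V3) (σ : V3 → Bool) (q : D) (α β γ : Fin 3) (Z Z' : Set V)
    (nr : V → V → Prop) : Prop :=
  ∃ m f j₁ i₁ N, Span T T3 π O c n s₁ s₂ π3 lab σ q α β γ m f j₁ i₁ N ∧
    ((∃ z ∈ Z', z ∈ Sn T T3 σ (f 1) N ∧
        BArm T {v | π v ≠ O} (fun v => σ (π3 v)) (σ (T3.src q)) z (f 1) (f (m - 1))) ∨
      ((∀ z ∈ Sn T T3 σ (f 1) N, z ∉ Z') ∧ ∃ z ∈ Z, ∃ u, Nb T u z ∧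
        Joined T (fun v => σ (π3 v)) (σ (lab γ)) {v | π v ≠ O} u (T.tgt (f 1))) ∨
      nr (T.src (c i₁)) (T.src (c j₁)))

/-- **The closed case**: the class of `q` without `q`, closed by the darts of the main cycle between
its ends, is a class of the plane colouring `τ`. -/
structure Clo [Fintype D] (T : Tri V D) (T3 : Tri V3 D) (π : V → V1) (O : V1) (c : ℕ → D)
    (n s₁ s₂ : ℕ) (π3 : V → V3) (lab : Fin 3 → V3) (σ : V3 → Bool) (q : D) (α β γ : Fin 3)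
    (Z Z' : Set V) (nr : V → V → Prop) (τ : V → Bool) (m : ℕ) (f : ℕ → D) (j₁ i₁ N : ℕ) : Prop
    extends Span T T3 π O c n s₁ s₂ π3 lab σ q α β γ m f j₁ i₁ N where
  off : ∀ z ∈ Sn T T3 σ (f 1) N, z ∉ Z'
  mi : T.Mi τ (f 1)
  rel : ∀ g, T.Rel τ (f 1) g ↔ (∃ i, 1 ≤ i ∧ i < m ∧ g = f i) ∨
    ∃ k < gapL n j₁ i₁, g = cy c n (j₁ + k)
  cls : ∀ Θ : D → ℂ, T.cls τ (f 1) Θ = ∑ i ∈ Finset.Ico 1 m, Θ (f i) +
    ∑ k ∈ Finset.range (gapL n j₁ i₁), Θ (cy c n (j₁ + k))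
  link : ∃ i < n, InArc s₁ s₂ n γ i ∧ T.src (c i) ∉ Z ∧ (T.tgt (f 1) = T.src (c i) ∨
    ∃ u, (∃ e, T.src e = T.src (c i) ∧ T.tgt e = u) ∧
      Joined T (fun v => σ (π3 v)) (σ (lab γ)) {v | π v ≠ O ∧ v ∉ Z} u (T.tgt (f 1)))
  far : ¬ nr (T.src (c i₁)) (T.src (c j₁))

variable {T : Tri V D} {T3 : Tri V3 D} {π : V → V1} {O : V1} {c : ℕ → D} {n s₁ s₂ : ℕ}
  {π3 : V → V3} {lab : Fin 3 → V3} {σ : V3 → Bool} {q : D} {α β γ : Fin 3} {Z Z' : Set V}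
  {τ : V → Bool}

/-- The dichotomy gives the bad alternatives or the closed case. -/
theorem dich_cases [Fintype D] (nr : V → V → Prop)
    (h : Dich T T3 π O c n s₁ s₂ π3 lab σ q α β γ Z Z' τ) :
    Alt T T3 π O c n s₁ s₂ π3 lab σ q α β γ Z Z' nr ∨
      ∃ m f j₁ i₁ N, Clo T T3 π O c n s₁ s₂ π3 lab σ q α β γ Z Z' nr τ m f j₁ i₁ N := by
  obtain ⟨m, f, j₁, i₁, N, h1, h2, h3, h4, h5⟩ := h
  have hS : Span T T3 π O c n s₁ s₂ π3 lab σ q α β γ m f j₁ i₁ N := ⟨h1, h2, h3, h4⟩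
  by_cases hn : nr (T.src (c i₁)) (T.src (c j₁))
  · exact Or.inl ⟨m, f, j₁, i₁, N, hS, Or.inr (Or.inr hn)⟩
  rcases h5 with h5 | ⟨h5, h6 | ⟨h6, h7, h8, h9⟩⟩
  · exact Or.inl ⟨m, f, j₁, i₁, N, hS, Or.inl h5⟩
  · exact Or.inl ⟨m, f, j₁, i₁, N, hS, Or.inr (Or.inl ⟨h5, h6⟩)⟩
  · exact Or.inr ⟨m, f, j₁, i₁, N, ⟨hS, h5, h6, h7, h8, h9, hn⟩⟩

end abs

/-! ### the calibration inequality of one world -/

section world

variable {X : Set ℂ} {b : ZMod 3 → ℂ} {h : HullTri X b} {x₀ : X} {B : Set ℂ}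
  {O3 : Fin 3 → Set ℂ} {h3 : Three3 X B O3} {w : X → Bool} {c : ℕ → Fc X b × ZMod 3} {n s₁ s₂ : ℕ}

/-- The bad alternatives of the pattern `γ` in the world of the colours `s`. -/
abbrev AltW (h : HullTri X b) (x₀ : X) (h3 : Three3 X B O3) (c : ℕ → Fc X b × ZMod 3)
    (n s₁ s₂ : ℕ) (γ : Fin 3) (Z Z' : Set X) (nr : X → X → Prop) (s : X → Bool) : Prop :=
  Alt (TP h x₀) (TC h h3) (piB X B) (Sum.inl ()) c n s₁ s₂ (pi3 X O3) Sum.inl (patt X O3 γ s)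
    (qd (TC h h3) (c (s₁ - 1)) γ) (γ + 1) (γ + 2) γ Z Z' nr

/-- The closed case of the pattern `γ` in the world of the colours `s`. -/
abbrev CloW [Fintype (Fc X b × ZMod 3)] (h : HullTri X b) (x₀ : X) (h3 : Three3 X B O3)
    (c : ℕ → Fc X b × ZMod 3) (n s₁ s₂ : ℕ) (γ : Fin 3) (Z Z' : Set X) (nr : X → X → Prop)
    (τ : (X → Bool) → X → Bool) (s : X → Bool) (m : ℕ) (f : ℕ → Fc X b × ZMod 3)
    (j₁ i₁ N : ℕ) : Prop :=
  Clo (TP h x₀) (TC h h3) (piB X B) (Sum.inl ()) c n s₁ s₂ (pi3 X O3) Sum.inl (patt X O3 γ s)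
    (qd (TC h h3) (c (s₁ - 1)) γ) (γ + 1) (γ + 2) γ Z Z' nr (τ s) m f j₁ i₁ N

theorem fin3_cases (γ : Fin 3) : γ = 0 ∨ γ = 1 ∨ γ = 2 :=
  (by decide : ∀ j : Fin 3, j = 0 ∨ j = 1 ∨ j = 2) γ

variable (hW : W3 (TP h x₀) (TC h h3) (piB X B) (Sum.inl ()) w c n s₁ s₂
      (fun j => {v : X | v.1 ∈ O3 j}) (pi3 X O3) Sum.inl)
include hW

/-- The corners of the dart `qd γ`. -/
theorem qd_facts (γ : Fin 3) : (TC h h3).InFace (c (s₁ - 1)) (qd (TC h h3) (c (s₁ - 1)) γ) ∧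
    ((TP h x₀).src (qd (TC h h3) (c (s₁ - 1)) γ)).1 ∈ O3 (γ + 1) ∧
    ((TP h x₀).apex (qd (TC h h3) (c (s₁ - 1)) γ)).1 ∈ O3 (γ + 2) ∧
    ((TP h x₀).tgt (qd (TC h h3) (c (s₁ - 1)) γ)).1 ∈ O3 γ := by
  obtain ⟨a1, a2, a3⟩ := hW.o_corners
  rcases fin3_cases γ with rfl | rfl | rfl
  · exact ⟨Or.inl rfl, a1, a3, a2⟩
  · refine ⟨Or.inr (Or.inr rfl), ?_, ?_, ?_⟩
    · have : (TP h x₀).src ((TC h h3).nxt ((TC h h3).nxt (c (s₁ - 1)))) =
          (TP h x₀).apex (c (s₁ - 1)) := (TP h x₀).src_nxt2 _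
      show ((TP h x₀).src ((TC h h3).nxt ((TC h h3).nxt (c (s₁ - 1))))).1 ∈ O3 2
      rw [this]; exact a3
    · have : (TP h x₀).apex ((TC h h3).nxt ((TC h h3).nxt (c (s₁ - 1)))) =
          (TP h x₀).tgt (c (s₁ - 1)) := (TP h x₀).apex_nxt2 _
      show ((TP h x₀).apex ((TC h h3).nxt ((TC h h3).nxt (c (s₁ - 1))))).1 ∈ O3 0
      rw [this]; exact a2
    · have : (TP h x₀).tgt ((TC h h3).nxt ((TC h h3).nxt (c (s₁ - 1)))) =
          (TP h x₀).src (c (s₁ - 1)) := (TP h x₀).tgt_nxt2 _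
      show ((TP h x₀).tgt ((TC h h3).nxt ((TC h h3).nxt (c (s₁ - 1))))).1 ∈ O3 1
      rw [this]; exact a1
  · refine ⟨Or.inr (Or.inl rfl), ?_, ?_, ?_⟩
    · have : (TP h x₀).src ((TC h h3).nxt (c (s₁ - 1))) = (TP h x₀).tgt (c (s₁ - 1)) :=
        (TP h x₀).src_nxt' _
      show ((TP h x₀).src ((TC h h3).nxt (c (s₁ - 1)))).1 ∈ O3 0
      rw [this]; exact a2
    · have : (TP h x₀).apex ((TC h h3).nxt (c (s₁ - 1))) = (TP h x₀).src (c (s₁ - 1)) :=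
        (TP h x₀).apex_nxt _
      show ((TP h x₀).apex ((TC h h3).nxt (c (s₁ - 1)))).1 ∈ O3 1
      rw [this]; exact a1
    · have : (TP h x₀).tgt ((TC h h3).nxt (c (s₁ - 1))) = (TP h x₀).apex (c (s₁ - 1)) :=
        (TP h x₀).tgt_nxt _
      show ((TP h x₀).tgt ((TC h h3).nxt (c (s₁ - 1)))).1 ∈ O3 2
      rw [this]; exact a3

/-- A dart of the frozen face is the dart `qd` of the class of its target. -/
theorem eq_qd {q : Fc X b × ZMod 3} (hq : (TC h h3).InFace (c (s₁ - 1)) q) {γ : Fin 3}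
    (hγ : ((TP h x₀).tgt q).1 ∈ O3 γ) : q = qd (TC h h3) (c (s₁ - 1)) γ := by
  have key : ∀ γ' : Fin 3, q = qd (TC h h3) (c (s₁ - 1)) γ' →
      q = qd (TC h h3) (c (s₁ - 1)) γ := by
    intro γ' hq'
    have h1 := (qd_facts hW γ').2.2.2
    rw [← hq'] at h1
    have : γ' = γ := hW.cls_unique h1 hγ
    rwa [← this]
  rcases hq with hq | hq | hq
  · exact key 0 hq
  · exact key 2 hq
  · exact key 1 hq

/-- In the pattern `γ` the dart `qd γ` is a minority dart. -/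
theorem qd_mi (γ : Fin 3) (s : X → Bool) :
    (TC h h3).Mi (patt X O3 γ s) (qd (TC h h3) (c (s₁ - 1)) γ) := by
  obtain ⟨-, h1, h2, h4⟩ := qd_facts hW γ
  have e1 : (TC h h3).src (qd (TC h h3) (c (s₁ - 1)) γ) = Sum.inl (γ + 1) := hW.src3 h1
  have e2 : (TC h h3).apex (qd (TC h h3) (c (s₁ - 1)) γ) = Sum.inl (γ + 2) := hW.apex3 h2
  have e3 : (TC h h3).tgt (qd (TC h h3) (c (s₁ - 1)) γ) = Sum.inl γ := hW.tgt3 h4
  unfold Tri.Mi
  rw [e1, e2, e3]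
  rcases fin3_cases γ with rfl | rfl | rfl <;> simp [patt] <;> decide

variable [Fintype X] [Fintype (CV X O3)] [Fintype (Fc X b × ZMod 3)]

/-- **The calibration inequality of one world**, from the dichotomy, the arms, the plane classes and
the chain of the main cycle. -/
theorem one_world {pos : X → ℂ} {W δ : ℝ} (hδ : 0 ≤ δ) (hW0 : 0 ≤ W)
    (hp : ArcPos (TP h x₀) c n s₁ s₂ pos W δ) {κ : ℂ} (hκ : κ ^ 2 + κ + 1 = 0) (hi : 0 < κ.im)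
    {r : ℝ} (hr : 0 ≤ r)
    (hbad : (pr fun s : X → Bool => ∃ g, (TC h h3).Rel (patt X O3 2 s)
      ((TC h h3).nxt (c (s₁ - 1))) g ∧ g ≠ (TC h h3).nxt (c (s₁ - 1)) ∧
      (TC h h3).src g = Sum.inl 1 ∧ (pos ((TP h x₀).src g)).re < r) ≤ 1 / 2)
    {Θ : Dt → ℂ} (hΘ : ∀ d, Θ (rt d) = κ ^ 2 * Θ d) {z : ℂ}
    {Z Z' : Fin 3 → Set X} {nr : X → X → Prop} {τ : Fin 3 → (X → Bool) → X → Bool}
    (hD : ∀ γ s, Dich (TP h x₀) (TC h h3) (piB X B) (Sum.inl ()) c n s₁ s₂ (pi3 X O3) Sum.inl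
      (patt X O3 γ s) (qd (TC h h3) (c (s₁ - 1)) γ) (γ + 1) (γ + 2) γ (Z γ) (Z' γ) (τ γ s))
    {D0 E t t' t'' : ℝ}
    (hpos : ∀ i < n, ∀ j < n, ‖pos ((TP h x₀).src (c j)) - pos ((TP h x₀).src (c i))‖ ≤ D0)
    (hE : ∑ d, ‖th3 h h3 (c (s₁ - 1)) Θ d‖ ^ 2 ≤ E)
    (hA : ∀ γ, pr (AltW h x₀ h3 c n s₁ s₂ γ (Z γ) (Z' γ) nr) ≤ t'')
    (hU : ∀ (γ : Fin 3) (F : (X → Bool) → Fc X b × ZMod 3),
      (∀ s, ¬ AltW h x₀ h3 c n s₁ s₂ γ (Z γ) (Z' γ) nr s → ∃ m f j₁ i₁ N,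
        CloW h x₀ h3 c n s₁ s₂ γ (Z γ) (Z' γ) nr (τ γ) s m f j₁ i₁ N ∧ f 1 = F s) →
      (ex fun s => if AltW h x₀ h3 c n s₁ s₂ γ (Z γ) (Z' γ) nr s then 0 else
        ‖(TP h x₀).cls (τ γ s) (F s) (thP h x₀ Θ)‖ ^ 2) ≤ t)
    (hV : ∀ (γ : Fin 3) (J I : (X → Bool) → ℕ) (Gd : (X → Bool) → Prop),
      (∀ s, Gd s → ∃ m f N,
        CloW h x₀ h3 c n s₁ s₂ γ (Z γ) (Z' γ) nr (τ γ) s m f (J s) (I s) N) →
      (ex fun s => if Gd s then ‖∑ k ∈ Finset.range (gapL n (J s) (I s)),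
        thP h x₀ Θ (cy c n (J s + k)) + z * (pos ((TP h x₀).src (c (J s))) -
          pos ((TP h x₀).src (c (I s))))‖ ^ 2 else 0) ≤ t') :
    ‖z‖ * (r / 4 - 10 * δ) ≤
      3 * (Real.sqrt t + Real.sqrt t' + Real.sqrt t'' * Real.sqrt (2 * E + 2 * (‖z‖ ^ 2 * D0 ^ 2))) := by
  have hex : ∀ (γ : Fin 3) (s : X → Bool), ∃ (m : ℕ) (f : ℕ → Fc X b × ZMod 3) (j₁ i₁ N : ℕ),
      ¬ AltW h x₀ h3 c n s₁ s₂ γ (Z γ) (Z' γ) nr s →
      CloW h x₀ h3 c n s₁ s₂ γ (Z γ) (Z' γ) nr (τ γ) s m f j₁ i₁ N := by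
    intro γ s
    by_cases hG : AltW h x₀ h3 c n s₁ s₂ γ (Z γ) (Z' γ) nr s
    · exact ⟨0, fun _ => c 0, 0, 0, 0, fun h => absurd hG h⟩
    · obtain ⟨m, f, j₁, i₁, N, hC⟩ := (dich_cases nr (hD γ s)).resolve_left hG
      exact ⟨m, f, j₁, i₁, N, fun _ => hC⟩
  choose m f J I N hC using hex
  refine world_cal hW hδ hW0 hp hκ hi hr hbad hΘ (z := z)
    (Bad := fun γ => AltW h x₀ h3 c n s₁ s₂ γ (Z γ) (Z' γ) nr)
    (MQ := fun γ s => if AltW h x₀ h3 c n s₁ s₂ γ (Z γ) (Z' γ) nr s then 0 else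
      ‖(TP h x₀).cls (τ γ s) (f γ s 1) (thP h x₀ Θ)‖ ^ 2)
    (DV := fun γ s => if ¬ AltW h x₀ h3 c n s₁ s₂ γ (Z γ) (Z' γ) nr s then
      ‖∑ k ∈ Finset.range (gapL n (J γ s) (I γ s)), thP h x₀ Θ (cy c n (J γ s + k)) +
        z * (pos ((TP h x₀).src (c (J γ s))) - pos ((TP h x₀).src (c (I γ s))))‖ ^ 2 else 0)
    (D0 := D0) (E := E) (t := t) (t' := t') (t'' := t'') ?_ ?_ ?_ ?_ hE ?_ ?_ hA
  · intro γ s
    split_ifs <;> positivity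
  · intro γ s
    split_ifs <;> positivity
  · intro q hq γ hγ s
    obtain rfl := eq_qd hW hq hγ
    by_cases hb : AltW h x₀ h3 c n s₁ s₂ γ (Z γ) (Z' γ) nr s
    · exact Or.inl hb
    · right
      have hc := hC γ s hb
      refine ⟨(TP h x₀).cls (τ γ s) (f γ s 1) (thP h x₀ Θ),
        ∑ k ∈ Finset.range (gapL n (J γ s) (I γ s)), thP h x₀ Θ (cy c n (J γ s + k)), ?_, ?_, ?_⟩
      · rw [cls_th3 hW Θ hq hc.path, hc.cls]
        ring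
      · rw [if_neg hb]
      · rw [if_pos hb, hc.path.ds_eq' hW.contr pos]
  · intro q hq γ _ s
    exact ds_le hW hpos hq
  · intro γ
    exact hU γ (fun s => f γ s 1) fun s hs => ⟨m γ s, f γ s, J γ s, I γ s, N γ s, hC γ s hs, rfl⟩
  · intro γ
    refine (ex_congr fun s => ?_).trans_le (hV γ (J γ) (I γ)
      (fun s => ¬ AltW h x₀ h3 c n s₁ s₂ γ (Z γ) (Z' γ) nr s)
      fun s hs => ⟨m γ s, f γ s, N γ s, hC γ s hs⟩)
    split_ifs <;> rfl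

end world

/-! ### the real inequality -/

/-- From the inequality of one world to the inequality of `F.CalWorld`. -/
theorem real_step {x r δ e E D0 c t'' ε : ℝ} (hx : 0 ≤ x) (he : 0 ≤ e) (hE : 0 ≤ E) (hD : 0 ≤ D0)
    (hc : 0 ≤ c) (hδ : 10 * δ ≤ r / 8)
    (h : x * (r / 4 - 10 * δ) ≤ 3 * (Real.sqrt (e ^ 2) + Real.sqrt (8 * e ^ 2 + 4 * (x ^ 2 * c ^ 2)) +
      Real.sqrt t'' * Real.sqrt (2 * E + 2 * (x ^ 2 * D0 ^ 2))))
    (hε : 6 * c + 3 * Real.sqrt t'' * (Real.sqrt (2 * E) + 2 * D0) ≤ ε) :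
    r / 8 * x ≤ 12 * e + ε * (1 + x) := by
  have h1 : Real.sqrt (e ^ 2) = e := Real.sqrt_sq he
  have h2 : Real.sqrt (8 * e ^ 2 + 4 * (x ^ 2 * c ^ 2)) ≤ 3 * e + 2 * (x * c) := by
    apply Real.sqrt_le_iff.2
    refine ⟨by positivity, ?_⟩
    nlinarith [mul_nonneg he (mul_nonneg hx hc)]
  have h4 : Real.sqrt (2 * E + 2 * (x ^ 2 * D0 ^ 2)) ≤ Real.sqrt (2 * E) + 2 * (x * D0) := by
    apply Real.sqrt_le_iff.2
    refine ⟨by positivity, ?_⟩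
    have h5 := Real.sq_sqrt (show (0 : ℝ) ≤ 2 * E by positivity)
    have h6 := Real.sqrt_nonneg (2 * E)
    nlinarith [mul_nonneg h6 (mul_nonneg hx hD), sq_nonneg (x * D0)]
  have h7 := Real.sqrt_nonneg t''
  have h8 : Real.sqrt t'' * Real.sqrt (2 * E + 2 * (x ^ 2 * D0 ^ 2)) ≤
      Real.sqrt t'' * (Real.sqrt (2 * E) + 2 * (x * D0)) := mul_le_mul_of_nonneg_left h4 h7
  have h9 := Real.sqrt_nonneg (2 * E)
  have h10 : x * (r / 8) ≤ x * (r / 4 - 10 * δ) := mul_le_mul_of_nonneg_left (by linarith) hx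
  have h11 : (6 * c + 3 * Real.sqrt t'' * (Real.sqrt (2 * E) + 2 * D0)) * (1 + x) ≤ ε * (1 + x) :=
    mul_le_mul_of_nonneg_right hε (by linarith)
  rw [h1] at h
  nlinarith [mul_nonneg h7 h9, mul_nonneg hx (mul_nonneg h7 h9), mul_nonneg h7 hD,
    mul_nonneg hx hc, mul_nonneg hx (mul_nonneg h7 hD)]

end Vale.Agent.P148.R2.H953
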