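import Vale.Agent.P148.R2.H953.Tool1

/-!
# P148, module FT, part 2: resampling, stopping sets, independence

`A : (V → Bool) → Set V` is a stopping set when it is determined by the colours on it (the set of
vertices revealed by an exploration). Given the colours on it, the other colours are fair.
-/

open Finset
open scoped Classical

namespace Vale.Agent.P148.R2.H953

variable {V : Type*} [Fintype V]

set_option linter.unusedSectionVars false

/-- `ρ` agrees with `σ` on `S`. -/
def Agree (S : Set V) (σ ρ : V → Bool) : Prop := ∀ v ∈ S, ρ v = σ v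

theorem Agree.rfl {S : Set V} {σ : V → Bool} : Agree S σ σ := fun _ _ => Eq.refl _

theorem Agree.symm {S : Set V} {σ ρ : V → Bool} (h : Agree S σ ρ) : Agree S ρ σ :=
  fun v hv => (h v hv).symm

theorem Agree.trans {S : Set V} {σ ρ π : V → Bool} (h : Agree S σ ρ) (h2 : Agree S ρ π) :
    Agree S σ π := fun v hv => (h2 v hv).trans (h v hv)

theorem Agree.mono {S T : Set V} {σ ρ : V → Bool} (h : Agree S σ ρ) (hT : T ⊆ S) :
    Agree T σ ρ := fun v hv => h v (hT hv)

/-- The colours of `σ` on `S` and of `ρ` off `S`. -/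
noncomputable def glue (S : Set V) (σ ρ : V → Bool) : V → Bool :=
  fun v => if v ∈ S then σ v else ρ v

theorem glue_mem {S : Set V} {σ ρ : V → Bool} {v : V} (h : v ∈ S) : glue S σ ρ v = σ v :=
  if_pos h

theorem glue_not_mem {S : Set V} {σ ρ : V → Bool} {v : V} (h : v ∉ S) : glue S σ ρ v = ρ v :=
  if_neg h

theorem agree_glue (S : Set V) (σ ρ : V → Bool) : Agree S σ (glue S σ ρ) :=
  fun _ hv => glue_mem hv

theorem agree_glue' (S : Set V) (σ ρ : V → Bool) : Agree Sᶜ ρ (glue S σ ρ) :=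
  fun _ hv => glue_not_mem hv

theorem glue_self (S : Set V) (σ : V → Bool) : glue S σ σ = σ := by
  funext v; unfold glue; split_ifs <;> rfl

theorem glue_compl (S : Set V) (σ ρ : V → Bool) : glue Sᶜ σ ρ = glue S ρ σ := by
  funext v
  by_cases h : v ∈ S
  · rw [glue_not_mem (by simpa using h), glue_mem h]
  · rw [glue_mem (by simpa using h), glue_not_mem h]

theorem glue_congr {S : Set V} {σ σ' ρ ρ' : V → Bool} (h : Agree S σ σ') (h' : Agree Sᶜ ρ ρ') :
    glue S σ ρ = glue S σ' ρ' := by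
  funext v
  by_cases hv : v ∈ S
  · rw [glue_mem hv, glue_mem hv, h v hv]
  · rw [glue_not_mem hv, glue_not_mem hv, h' v hv]

/-- Stopping sets. -/
def IsStop (A : (V → Bool) → Set V) : Prop := ∀ σ ρ, Agree (A σ) σ ρ → A ρ = A σ

/-- `g` is determined by the colours on `A`. -/
def Meas {β : Sort*} (A : (V → Bool) → Set V) (g : (V → Bool) → β) : Prop :=
  ∀ σ ρ, Agree (A σ) σ ρ → g ρ = g σ

theorem isStop_const (S : Set V) : IsStop fun _ : V → Bool => S := fun _ _ _ => rfl

theorem IsStop.meas {A : (V → Bool) → Set V} (h : IsStop A) : Meas A A := h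

theorem Meas.const {β : Sort*} (A : (V → Bool) → Set V) (b : β) : Meas A fun _ => b :=
  fun _ _ _ => rfl

theorem Meas.comp {β γ : Sort*} {A : (V → Bool) → Set V} {g : (V → Bool) → β} (h : Meas A g)
    (f : β → γ) : Meas A fun σ => f (g σ) := fun σ ρ hr => congrArg f (h σ ρ hr)

theorem Meas.comp₂ {β β' γ : Sort*} {A : (V → Bool) → Set V} {g : (V → Bool) → β}
    {g' : (V → Bool) → β'} (h : Meas A g) (h' : Meas A g') (f : β → β' → γ) :
    Meas A fun σ => f (g σ) (g' σ) := fun σ ρ hr => by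
  change f (g ρ) (g' ρ) = f (g σ) (g' σ)
  rw [h σ ρ hr, h' σ ρ hr]

theorem Meas.mono {β : Sort*} {A B : (V → Bool) → Set V} {g : (V → Bool) → β} (h : Meas A g)
    (hAB : ∀ σ, A σ ⊆ B σ) : Meas B g := fun σ ρ hr => h σ ρ (hr.mono (hAB σ))

/-- The swap of the unexplored colours of two configurations. -/
noncomputable def swap (A : (V → Bool) → Set V) (p : (V → Bool) × (V → Bool)) :
    (V → Bool) × (V → Bool) := (glue (A p.1) p.1 p.2, glue (A p.1) p.2 p.1)

theorem swap_invol {A : (V → Bool) → Set V} (hA : IsStop A) : Function.Involutive (swap A) := by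
  rintro ⟨σ, ρ⟩
  have h1 : A (glue (A σ) σ ρ) = A σ := hA _ _ (agree_glue _ _ _)
  refine Prod.ext ?_ ?_
  · simp only [swap, h1]
    funext v
    by_cases hv : v ∈ A σ
    · rw [glue_mem hv, glue_mem hv]
    · rw [glue_not_mem hv, glue_not_mem hv]
  · simp only [swap, h1]
    funext v
    by_cases hv : v ∈ A σ
    · rw [glue_mem hv, glue_mem hv]
    · rw [glue_not_mem hv, glue_not_mem hv]

/-- **Resampling the unexplored colours**, two-copy form. -/
theorem ex2_swap {A : (V → Bool) → Set V} (hA : IsStop A) (F : (V → Bool) → (V → Bool) → ℝ) :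
    (ex fun σ => ex fun ρ => F (glue (A σ) σ ρ) (glue (A σ) ρ σ)) = ex fun σ => ex fun ρ => F σ ρ := by
  have key : ∀ G : (V → Bool) × (V → Bool) → ℝ, (ex fun σ => ex fun ρ => G (σ, ρ)) =
      (∑ p, G p) / (2 ^ Fintype.card V * 2 ^ Fintype.card V) := by
    intro G
    unfold ex
    rw [Fintype.sum_prod_type, ← sum_div, div_div]
  have h1 := key fun p => F (swap A p).1 (swap A p).2
  have h2 := key fun p => F p.1 p.2
  have h3 : ∑ p, F (swap A p).1 (swap A p).2 = ∑ p : (V → Bool) × (V → Bool), F p.1 p.2 :=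
    Equiv.sum_comp (swap_invol hA).toPerm fun p => F p.1 p.2
  rw [h3, ← h2] at h1
  exact h1

/-- **Resampling the unexplored colours.** -/
theorem ex_resample {A : (V → Bool) → Set V} (hA : IsStop A) (f : (V → Bool) → ℝ) :
    (ex fun σ => ex fun ρ => f (glue (A σ) σ ρ)) = ex f := by
  rw [ex2_swap hA fun σ _ => f σ]
  exact ex_congr fun σ => ex_const _

/-- Conditional form: `g` is explored. -/
theorem ex_mul_resample {A : (V → Bool) → Set V} (hA : IsStop A) {g : (V → Bool) → ℝ}
    (hg : Meas A g) (f : (V → Bool) → ℝ) :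
    ex (fun σ => g σ * f σ) = ex fun σ => g σ * ex fun ρ => f (glue (A σ) σ ρ) := by
  rw [← ex_resample hA fun σ => g σ * f σ]
  refine ex_congr fun σ => ?_
  rw [← ex_smul]
  exact ex_congr fun ρ => by rw [hg σ _ (agree_glue _ _ _)]

/-- Conditional upper bound. -/
theorem ex_mul_le {A : (V → Bool) → Set V} (hA : IsStop A) {g h : (V → Bool) → ℝ}
    (hg : Meas A g) (hg0 : ∀ σ, 0 ≤ g σ) {f : (V → Bool) → ℝ}
    (hf : ∀ σ, g σ ≠ 0 → (ex fun ρ => f (glue (A σ) σ ρ)) ≤ h σ) :
    ex (fun σ => g σ * f σ) ≤ ex fun σ => g σ * h σ := by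
  rw [ex_mul_resample hA hg]
  refine ex_mono fun σ => ?_
  by_cases h0 : g σ = 0
  · rw [h0]; simp
  · exact mul_le_mul_of_nonneg_left (hf σ h0) (hg0 σ)

theorem ex_mul_le_const {A : (V → Bool) → Set V} (hA : IsStop A) {g : (V → Bool) → ℝ}
    (hg : Meas A g) (hg0 : ∀ σ, 0 ≤ g σ) {f : (V → Bool) → ℝ} {c : ℝ}
    (hf : ∀ σ, g σ ≠ 0 → (ex fun ρ => f (glue (A σ) σ ρ)) ≤ c) :
    ex (fun σ => g σ * f σ) ≤ c * ex g := by
  have := ex_mul_le (h := fun _ => c) hA hg hg0 hf
  rwa [ex_mul_const, mul_comm] at this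

/-- Conditional lower bound. -/
theorem const_le_ex_mul {A : (V → Bool) → Set V} (hA : IsStop A) {g : (V → Bool) → ℝ}
    (hg : Meas A g) (hg0 : ∀ σ, 0 ≤ g σ) {f : (V → Bool) → ℝ} {c : ℝ}
    (hf : ∀ σ, g σ ≠ 0 → c ≤ ex fun ρ => f (glue (A σ) σ ρ)) :
    c * ex g ≤ ex (fun σ => g σ * f σ) := by
  rw [ex_mul_resample hA hg, ← ex_smul]
  refine ex_mono fun σ => ?_
  by_cases h0 : g σ = 0
  · rw [h0]; simp
  · rw [mul_comm c]; exact mul_le_mul_of_nonneg_left (hf σ h0) (hg0 σ)

theorem pr_and_le {A : (V → Bool) → Set V} (hA : IsStop A) {p q : (V → Bool) → Prop}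
    (hp : Meas A p) {c : ℝ} (hc : ∀ σ, p σ → (pr fun ρ => q (glue (A σ) σ ρ)) ≤ c) :
    (pr fun σ => p σ ∧ q σ) ≤ c * pr p := by
  rw [pr_and_eq]
  refine ex_mul_le_const (g := fun σ => if p σ then (1 : ℝ) else 0) hA
    (fun σ ρ h => by simp only [hp σ ρ h]) (fun σ => by split_ifs <;> norm_num) (fun σ hσ => ?_)
  refine hc σ ?_
  by_contra h
  exact hσ (if_neg h)

theorem le_pr_and {A : (V → Bool) → Set V} (hA : IsStop A) {p q : (V → Bool) → Prop}
    (hp : Meas A p) {c : ℝ} (hc : ∀ σ, p σ → c ≤ (pr fun ρ => q (glue (A σ) σ ρ))) :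
    c * pr p ≤ (pr fun σ => p σ ∧ q σ) := by
  rw [pr_and_eq]
  refine const_le_ex_mul (g := fun σ => if p σ then (1 : ℝ) else 0) hA
    (fun σ ρ h => by simp only [hp σ ρ h]) (fun σ => by split_ifs <;> norm_num) (fun σ hσ => ?_)
  refine hc σ ?_
  by_contra h
  exact hσ (if_neg h)

/-- Bound of an event which forces, given the explored colours, a fresh event. -/
theorem pr_and_le_fresh {A : (V → Bool) → Set V} (hA : IsStop A) {p q : (V → Bool) → Prop}
    (hp : Meas A p) (F : (V → Bool) → (V → Bool) → Prop)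
    (hF : ∀ σ ρ, p σ → q (glue (A σ) σ ρ) → F σ ρ) {c : ℝ} (hc : ∀ σ, p σ → pr (F σ) ≤ c) :
    (pr fun σ => p σ ∧ q σ) ≤ c * pr p :=
  pr_and_le hA hp fun σ hσ => (pr_mono fun ρ h => hF σ ρ hσ h).trans (hc σ hσ)

/-- The same for a weighted sum. -/
theorem ex_mul_pr_le_fresh {A : (V → Bool) → Set V} (hA : IsStop A) {g : (V → Bool) → ℝ}
    (hg : Meas A g) (hg0 : ∀ σ, 0 ≤ g σ) {q : (V → Bool) → Prop}
    (F : (V → Bool) → (V → Bool) → Prop)
    (hF : ∀ σ ρ, g σ ≠ 0 → q (glue (A σ) σ ρ) → F σ ρ) {c : ℝ}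
    (hc : ∀ σ, g σ ≠ 0 → pr (F σ) ≤ c) :
    ex (fun σ => g σ * (if q σ then 1 else 0)) ≤ c * ex g :=
  ex_mul_le_const hA hg hg0 fun σ hσ => (pr_mono fun ρ h => hF σ ρ hσ h).trans (hc σ hσ)

/-- The same, lower bound. -/
theorem le_ex_mul_pr_fresh {A : (V → Bool) → Set V} (hA : IsStop A) {g : (V → Bool) → ℝ}
    (hg : Meas A g) (hg0 : ∀ σ, 0 ≤ g σ) {q : (V → Bool) → Prop}
    (F : (V → Bool) → (V → Bool) → Prop)
    (hF : ∀ σ ρ, g σ ≠ 0 → F σ ρ → q (glue (A σ) σ ρ)) {c : ℝ}
    (hc : ∀ σ, g σ ≠ 0 → c ≤ pr (F σ)) :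
    c * ex g ≤ ex (fun σ => g σ * (if q σ then 1 else 0)) :=
  const_le_ex_mul hA hg hg0 fun σ hσ => (hc σ hσ).trans (pr_mono fun ρ h => hF σ ρ hσ h)

/-! ### Flipping off a stopping set -/

/-- Flip the unexplored colours. -/
noncomputable def flipOff (A : (V → Bool) → Set V) (σ : V → Bool) : V → Bool :=
  fun v => if v ∈ A σ then σ v else !σ v

theorem flipOff_invol {A : (V → Bool) → Set V} (hA : IsStop A) :
    Function.Involutive (flipOff A) := by
  intro σ
  have h1 : A (flipOff A σ) = A σ := hA _ _ fun v hv => if_pos hv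
  funext v
  by_cases hv : v ∈ A σ
  · simp [flipOff, h1, hv]
  · simp [flipOff, h1, hv]

theorem ex_flipOff {A : (V → Bool) → Set V} (hA : IsStop A) (f : (V → Bool) → ℝ) :
    ex (fun σ => f (flipOff A σ)) = ex f := ex_invol (flipOff_invol hA) f

theorem pr_flipOff {A : (V → Bool) → Set V} (hA : IsStop A) (p : (V → Bool) → Prop) :
    pr (fun σ => p (flipOff A σ)) = pr p := pr_invol (flipOff_invol hA) p

/-- Flip the colours of `B σ`, where `B` is invariant. -/
noncomputable def flipOn (B : (V → Bool) → Set V) (σ : V → Bool) : V → Bool :=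
  fun v => if v ∈ B σ then !σ v else σ v

theorem flipOn_invol {B : (V → Bool) → Set V} (hB : ∀ σ, B (flipOn B σ) = B σ) :
    Function.Involutive (flipOn B) := by
  intro σ
  have h1 := hB σ
  funext v
  by_cases hv : v ∈ B σ
  · have e1 : flipOn B σ v = !σ v := if_pos hv
    have e2 : flipOn B (flipOn B σ) v = !(flipOn B σ v) := if_pos (h1 ▸ hv)
    rw [e2, e1, Bool.not_not]
  · have e1 : flipOn B σ v = σ v := if_neg hv
    have e2 : flipOn B (flipOn B σ) v = flipOn B σ v := if_neg (h1 ▸ hv)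
    rw [e2, e1]

/-! ### Independence -/

/-- `g` depends only on the colours in `S`. -/
def On {β : Sort*} (S : Set V) (g : (V → Bool) → β) : Prop := ∀ σ ρ, Agree S σ ρ → g ρ = g σ

theorem On.mono {β : Sort*} {S T : Set V} {g : (V → Bool) → β} (h : On S g) (hT : S ⊆ T) :
    On T g := fun σ ρ hr => h σ ρ (hr.mono hT)

theorem On.meas {β : Sort*} {S : Set V} {g : (V → Bool) → β} (h : On S g) :
    Meas (fun _ => S) g := h

theorem On.ind {S : Set V} {p : (V → Bool) → Prop} (h : On S p) :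
    On S fun σ => if p σ then (1 : ℝ) else 0 := fun σ ρ hr => by simp only [h σ ρ hr]

theorem ex_mul_of_disjoint {S T : Set V} (hST : Disjoint S T) {f g : (V → Bool) → ℝ}
    (hf : On S f) (hg : On T g) : ex (fun σ => f σ * g σ) = ex f * ex g := by
  rw [ex_mul_resample (isStop_const S) hf.meas]
  rw [← ex_mul_const]
  refine ex_congr fun σ => ?_
  congr 1
  refine ex_congr fun ρ => ?_
  refine hg _ _ fun v hv => ?_
  exact glue_not_mem fun h => Set.disjoint_left.1 hST h hv

theorem pr_and_of_disjoint {S T : Set V} (hST : Disjoint S T) {p q : (V → Bool) → Prop}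
    (hp : On S p) (hq : On T q) : (pr fun σ => p σ ∧ q σ) = pr p * pr q := by
  rw [pr_and_eq]
  exact ex_mul_of_disjoint hST hp.ind hq.ind

theorem On.prod {ι : Type*} {s : Finset ι} {S : ι → Set V} {f : ι → (V → Bool) → ℝ}
    (hf : ∀ i ∈ s, On (S i) (f i)) : On (⋃ i ∈ s, S i) fun σ => ∏ i ∈ s, f i σ :=
  fun σ ρ h => prod_congr rfl fun i hi => hf i hi σ ρ (h.mono (Set.subset_biUnion_of_mem (u := S) hi))

theorem ex_prod {ι : Type*} (s : Finset ι) {S : ι → Set V}
    (hS : (s : Set ι).PairwiseDisjoint S) {f : ι → (V → Bool) → ℝ}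
    (hf : ∀ i ∈ s, On (S i) (f i)) : ex (fun σ => ∏ i ∈ s, f i σ) = ∏ i ∈ s, ex (f i) := by
  induction s using Finset.induction_on with
  | empty => simp [ex_const]
  | insert a s ha ih =>
    rw [prod_insert ha, ← ih (hS.subset (by simp)) fun i hi => hf i (mem_insert_of_mem hi)]
    rw [← ex_mul_of_disjoint (S := S a) (T := ⋃ i ∈ s, S i) ?_ (hf a (mem_insert_self a s))
      (On.prod fun i hi => hf i (mem_insert_of_mem hi))]
    · exact ex_congr fun σ => by rw [prod_insert ha]
    · rw [Set.disjoint_iUnion₂_right]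
      intro i hi
      refine hS (by simp) (by simp [hi]) ?_
      rintro rfl
      exact ha hi

theorem pr_forall_of_disjoint {ι : Type*} (s : Finset ι) {S : ι → Set V}
    (hS : (s : Set ι).PairwiseDisjoint S) {p : ι → (V → Bool) → Prop}
    (hp : ∀ i ∈ s, On (S i) (p i)) : (pr fun σ => ∀ i ∈ s, p i σ) = ∏ i ∈ s, pr (p i) := by
  have h := ex_prod s hS (f := fun i σ => if p i σ then (1 : ℝ) else 0) fun i hi => (hp i hi).ind
  unfold pr
  rw [← h]
  refine ex_congr fun σ => ?_
  rw [prod_boole]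
  by_cases h : ∀ i ∈ s, p i σ
  · rw [if_pos h, if_pos h]
  · rw [if_neg h, if_neg h]

/-- Independent trials: the probability that all `n` fail. -/
theorem pr_forall_le_pow {ι : Type*} (s : Finset ι) {S : ι → Set V}
    (hS : (s : Set ι).PairwiseDisjoint S) {p : ι → (V → Bool) → Prop}
    (hp : ∀ i ∈ s, On (S i) (p i)) {q : ℝ} (hq : ∀ i ∈ s, pr (p i) ≤ q) :
    (pr fun σ => ∀ i ∈ s, p i σ) ≤ q ^ s.card := by
  rw [pr_forall_of_disjoint s hS hp]
  exact (prod_le_prod (fun i _ => pr_nonneg _) hq).trans_eq (prod_const q)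

/-! ### Geometric tails for iterated explorations -/

/-- If the events `B k` decrease, `B k` is explored by the stopping set `A k`, and given the
colours explored at time `k` the event `B (k + 1)` has probability at most `q` on `B k`, then
`pr (B n) ≤ q ^ n`. -/
theorem pr_iter_le {A : ℕ → (V → Bool) → Set V} (hA : ∀ k, IsStop (A k))
    {B : ℕ → (V → Bool) → Prop} (hB : ∀ k, Meas (A k) (B k)) (hdec : ∀ k σ, B (k + 1) σ → B k σ)
    {q : ℝ} (hq0 : 0 ≤ q) (hq : ∀ k σ, B k σ → (pr fun ρ => B (k + 1) (glue (A k σ) σ ρ)) ≤ q)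
    (n : ℕ) : pr (B n) ≤ q ^ n := by
  induction n with
  | zero => simpa using pr_le_one (B 0)
  | succ n ih =>
    calc pr (B (n + 1)) ≤ pr (fun σ => B n σ ∧ B (n + 1) σ) :=
          pr_mono fun σ h => ⟨hdec n σ h, h⟩
      _ ≤ q * pr (B n) := pr_and_le (hA n) (hB n) (hq n)
      _ ≤ q * q ^ n := mul_le_mul_of_nonneg_left ih hq0
      _ = q ^ (n + 1) := by ring

/-- A stopping set as the union of an increasing finite process: `A k` is the set of vertices
revealed up to time `k` and `N k σ` the next vertex (if any), a function of the revealed colours. -/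
noncomputable def expl (N : Finset V → (V → Bool) → Option V) (σ : V → Bool) : ℕ → Finset V
  | 0 => ∅
  | k + 1 => match N (expl N σ k) σ with
    | none => expl N σ k
    | some v => insert v (expl N σ k)

/-- The explored set at any fixed time is a stopping set when the next vertex only depends on the
revealed colours. -/
theorem expl_stop {N : Finset V → (V → Bool) → Option V}
    (hN : ∀ (S : Finset V) σ ρ, Agree (S : Set V) σ ρ → N S ρ = N S σ) (k : ℕ) :
    IsStop fun σ => (expl N σ k : Set V) := by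
  have key : ∀ k σ ρ, Agree (expl N σ k : Set V) σ ρ → expl N ρ k = expl N σ k := by
    intro k
    induction k with
    | zero => intro σ ρ _; rfl
    | succ k ih =>
      intro σ ρ h
      have hsub : (expl N σ k : Set V) ⊆ (expl N σ (k + 1) : Set V) := by
        intro v hv
        simp only [expl]
        cases N (expl N σ k) σ with
        | none => exact hv
        | some w => simp only [coe_insert]; exact Set.mem_insert_of_mem _ hv
      have h1 := ih σ ρ (h.mono hsub)
      have h2 := hN (expl N σ k) σ ρ (h.mono hsub)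
      simp only [expl, h1, h2]
  intro σ ρ h
  simp only [key k σ ρ h]

end Vale.Agent.P148.R2.H953
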