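import Vale.Agent.P148.R2.H953.Cal2

/-!
# P148, row CAL, part 3: the calibration in the mirrored orientation

If the corners `src o`, `tgt o`, `apex o` are in the other cyclic order (bottom side, right side,
left and top), the reflection of the square which exchanges the right and the bottom side brings us
back to `cal`, for the other cube root of unity (`τ.im < 0`). So in either orientation exactly one
of the two weights is calibrated.
-/

open Function ComplexConjugate
open Vale.Agent.P148.R2.H258 Vale.Agent.P148.R2.H258.Tri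

namespace Vale.Agent.P148.R2.H953

variable {V D : Type*} (T : Tri V D)

/-- The reflection `(x, y) ↦ (W - y, W - x)`. -/
noncomputable def mirror (W : ℝ) (z : ℂ) : ℂ := W * (1 + Complex.I) - Complex.I * conj z

theorem mirror_re (W : ℝ) (z : ℂ) : (mirror W z).re = W - z.im := by
  simp [mirror]

theorem mirror_im (W : ℝ) (z : ℂ) : (mirror W z).im = W - z.re := by
  simp [mirror]

theorem ds_mirror [Fintype D] (P : D → ℂ) (W : ℝ) (σ : V → Bool) (o : D) :
    ds T (fun d => mirror W (P d)) σ o = -Complex.I * conj (ds T P σ o) := by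
  classical
  unfold ds
  rw [map_sum, Finset.mul_sum]
  refine Finset.sum_congr rfl fun g _ => ?_
  split_ifs
  · simp only [mirror, map_sub]
    ring
  · simp

theorem md_mirror [Fintype V] [Fintype D] (P : D → ℂ) (W : ℝ) (o : D) :
    md T (fun d => mirror W (P d)) o = -Complex.I * conj (md T P o) := by
  classical
  unfold md
  simp only [ds_mirror]
  rw [← Finset.mul_sum, map_mul, map_sum]
  have : conj (4 / 2 ^ Fintype.card V : ℂ) = 4 / 2 ^ Fintype.card V := by
    simp only [map_div₀, map_pow, Complex.conj_ofNat]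
  rw [this]
  ring

theorem freePos_mirror {P : D → ℂ} {W : ℝ} {o : D} (h : FreePos T P o) :
    FreePos T (fun d => mirror W (P d)) o := fun d e h1 h2 h3 h4 => by
  simp only [h d e h1 h2 h3 h4]

/-- The positions of the frozen vertices which are seen, other orientation: `src o` is the bottom
side, `tgt o` is the right side, `apex o` is the left and the top side. -/
structure SqPos' (P : D → ℂ) (o : D) (W δ : ℝ) : Prop where
  A : ∀ g, T.Good g → ¬ T.InFace o g → T.src g = T.src o →
    -δ ≤ (P g).re ∧ (P g).re ≤ W + δ ∧ -δ ≤ (P g).im ∧ (P g).im ≤ δ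
  B : ∀ g, T.Good g → ¬ T.InFace o g → T.src g = T.tgt o →
    W - δ ≤ (P g).re ∧ (P g).re ≤ W + δ ∧ -δ ≤ (P g).im ∧ (P g).im ≤ W + δ
  C : ∀ g, T.Good g → ¬ T.InFace o g → T.src g = T.apex o →
    -δ ≤ (P g).im ∧ (((P g).re ≤ δ ∧ -δ ≤ (P g).im) ∨ (W - δ ≤ (P g).im ∧ (P g).re ≤ W + δ))

theorem SqPos'.mirror {P : D → ℂ} {o : D} {W δ : ℝ} (h : SqPos' T P o W δ) :
    SqPos T (fun d => mirror W (P d)) o W δ where
  A := fun g h1 h2 h3 => by
    have := h.A g h1 h2 h3
    simp only [mirror_re, mirror_im]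
    refine ⟨?_, ?_, ?_, ?_⟩ <;> linarith [this.1, this.2.1, this.2.2.1, this.2.2.2]
  B := fun g h1 h2 h3 => by
    have := h.B g h1 h2 h3
    simp only [mirror_re, mirror_im]
    refine ⟨?_, ?_, ?_, ?_⟩ <;> linarith [this.1, this.2.1, this.2.2.1, this.2.2.2]
  C := fun g h1 h2 h3 => by
    have := h.C g h1 h2 h3
    simp only [mirror_re, mirror_im]
    refine ⟨by linarith [this.1], ?_⟩
    rcases this.2 with h4 | h4
    · right; constructor <;> linarith [h4.1, h4.2]
    · left; constructor <;> linarith [h4.1, h4.2]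

/-- **Calibration in the other orientation**: the weight of the other cube root of unity. `bad`: the
crossing from the right side to the left and top side closest to the bottom side starts within `r`
of the top right corner. -/
theorem cal' [Fintype V] [Fintype D] (hP : T.Planar) {o : D} (ho : T.Good o) {P : D → ℂ}
    (hf : FreePos T P o) {W δ : ℝ} (hδ : 0 ≤ δ) (hW : 0 ≤ W) (hpos : SqPos' T P o W δ)
    {τ : ℂ} (hτ : τ ^ 2 + τ + 1 = 0) (hi : τ.im < 0) {r : ℝ} (hr : 0 ≤ r) {ε : ℝ}
    (hbad : 4 * (pr fun σ => ∃ g, T.Rel σ (T.nxt (T.nxt o)) g ∧ g ≠ T.nxt (T.nxt o) ∧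
      T.src g = T.tgt o ∧ W - r < (P g).im) ≤ ε)
    {Θ : D → ℂ} (hΘ : ∀ d, Θ (T.nxt d) = τ ^ 2 * Θ d) (hΘo : Θ o = 0) {c : ℂ} {ε' : ℝ}
    (h0 : ‖T.EE o Θ - c * md T P o‖ ≤ ε') (h1 : ‖T.EE (T.nxt o) Θ - c * md T P (T.nxt o)‖ ≤ ε')
    (h2 : ‖T.EE (T.nxt (T.nxt o)) Θ - c * md T P (T.nxt (T.nxt o))‖ ≤ ε') :
    ‖c‖ * ((1 - ε) * (r / 2) - 10 * δ) ≤ 3 * ε' := by
  obtain ⟨a1, a2⟩ := T.EE_rot' hP hτ hΘ hΘo
  rw [a1] at h1
  rw [a2] at h2
  have hτ' : (conj τ) ^ 2 + conj τ + 1 = 0 := by
    have := congrArg conj hτ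
    simpa using this
  have hi' : 0 < (conj τ).im := by rw [Complex.conj_im]; linarith
  have key : ∀ (z : ℂ) (x : D), ‖z * T.EE o Θ - c * md T P x‖ ≤ ε' →
      ‖conj z * conj (T.EE o Θ) -
        (Complex.I * conj c) * md T (fun d => mirror W (P d)) x‖ ≤ ε' := by
    intro z x h
    rw [md_mirror]
    have e : conj z * conj (T.EE o Θ) - Complex.I * conj c * (-Complex.I * conj (md T P x)) =
        conj (z * T.EE o Θ - c * md T P x) := by
      simp only [map_sub, map_mul]
      linear_combination (conj c * conj (md T P x)) * Complex.I_sq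
    rw [e, Complex.norm_conj]
    exact h
  have g0 := key 1 o (by rwa [one_mul])
  have g1 := key τ (T.nxt o) h1
  have g2 := key (τ ^ 2) (T.nxt (T.nxt o)) h2
  rw [map_one, one_mul] at g0
  rw [map_pow] at g2
  have hm := twisted_ge T hP ho (freePos_mirror T hf (W := W)) hδ hW hpos.mirror hτ' hi' hr
    (ε := ε) (by
      refine le_trans (mul_le_mul_of_nonneg_left (pr_mono fun σ => ?_) (by norm_num)) hbad
      rintro ⟨g, q1, q2, q3, q4⟩
      refine ⟨g, q1, q2, q3, ?_⟩
      rw [mirror_re] at q4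
      linarith)
  have := cal_alg_re hτ' g0 g1 g2 hm
  rwa [norm_mul, Complex.norm_I, one_mul, Complex.norm_conj] at this

end Vale.Agent.P148.R2.H953
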