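import Vale.Agent.P148.R2.H953.Cal8a
import Vale.Agent.P148.R2.H953.CalEv
import Vale.Agent.P148.R2.N.Geo

/-!
# P148, row CAL: the order of the limits

`calWorld_top` : `F.CalWorld` at every level `ε`, for all large `M`, from the inequality of one world
at every level `om` of the arms.
-/

set_option linter.unusedSectionVars false

open MeasureTheory Set Metric Filter ProbabilityTheory Topology
open scoped ENNReal NNReal

namespace Vale.Agent.P148.R2.H953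

open _root_.P148
open Vale.Agent.P148.R2.H566 (UB Ev EvMean EvZero Scene)
open Vale.Agent.P148.R2.H598 (dv slope LlnData)
open Vale.Agent.P148.R2.N (ms ms_pos)

universe u

/-- The inequality of one world at the level `om` of the arms. -/
def OneIn (M : ℕ) (v : ℕ → ℂ) (r E D0 C om : ℝ) (mq : Fin 3 → ℝ≥0∞) (wn : ℝ≥0∞) : Prop :=
  ∀ (z : ℂ) (e : ℝ), 0 ≤ e → (∀ γ, mq γ ≤ ENNReal.ofReal (e ^ 2)) →
    wn ≤ ENNReal.ofReal (e ^ 2) → dv M z v ≤ ENNReal.ofReal (e ^ 2) →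
    ‖z‖ * (r / 4 - 10 * (6 * ms M)) ≤ 3 * (Real.sqrt (e ^ 2) +
      Real.sqrt (8 * e ^ 2 + 4 * (‖z‖ ^ 2 * (C * ms M) ^ 2)) +
      Real.sqrt (12 * om) * Real.sqrt (2 * E + 2 * (‖z‖ ^ 2 * D0 ^ 2)))

/-- **The order of the limits.** -/
theorem calWorld_top {s : ℕ → Set Pt → Scene} {v : ∀ M T, (s M T).ι → ℕ → ℂ} {r E D0 C : ℝ}
    (hr : 0 < r) (hE : 0 ≤ E) (hD : 0 ≤ D0) (hC : 0 ≤ C)
    (hH : ∀ om : ℝ, 0 < om → ∀ᶠ M in atTop, ∃ G : Set Pt → Prop, Ev.{u} G ∧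
      (∀ T, G T → ∑ i, (s M T).p i = 1) ∧
      ∃ (mq : Fin 3 → ∀ T, (s M T).ι → ℝ≥0∞) (wn : ∀ T, (s M T).ι → ℝ≥0∞),
        (∀ γ, EvZero.{u} fun T => ⨆ _ : G T, ∑ i, (s M T).p i * mq γ T i) ∧
        EvMean.{u} (fun T => ⨆ _ : G T, ∑ i, (s M T).p i * wn T i) (ENNReal.ofReal (C * ms M)) ∧
        ∀ T, G T → ∀ i, (s M T).p i ≠ 0 →
          OneIn M (v M T i) r E D0 C om (fun γ => mq γ T i) (wn T i)) :
    ∀ ε : ℝ, 0 < ε → ∀ᶠ M in atTop, F.CalWorld.{u} s v (r / 8) 12 ε M := by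
  intro ε hε
  -- the level of the arms
  obtain ⟨om, hom, homε⟩ : ∃ om : ℝ, 0 < om ∧
      3 * Real.sqrt (12 * om) * (Real.sqrt (2 * E) + 2 * D0) ≤ ε / 2 := by
    have h1 : Tendsto (fun x : ℝ => 3 * Real.sqrt (12 * x) * (Real.sqrt (2 * E) + 2 * D0))
        (𝓝[>] 0) (𝓝 0) := by
      have h2 : Continuous fun x : ℝ =>
          3 * Real.sqrt (12 * x) * (Real.sqrt (2 * E) + 2 * D0) := by fun_prop
      have h3 := (h2.tendsto 0).mono_left (nhdsWithin_le_nhds (s := Ioi (0 : ℝ)))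
      simpa using h3
    have h2 : ∀ᶠ x : ℝ in 𝓝[>] 0, 3 * Real.sqrt (12 * x) * (Real.sqrt (2 * E) + 2 * D0) ≤ ε / 2 :=
      (h1.eventually (gt_mem_nhds (show (0 : ℝ) < ε / 2 by positivity))).mono fun _ h => h.le
    obtain ⟨x, hx, hx'⟩ := (h2.and self_mem_nhdsWithin).exists
    exact ⟨x, hx', hx⟩
  -- the mesh
  have hms : Tendsto (fun M : ℕ => ms M) atTop (𝓝 0) :=
    tendsto_one_div_atTop_nhds_zero_nat (𝕜 := ℝ)
  have hm1 : ∀ᶠ M : ℕ in atTop, ms M ≤ r / 480 :=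
    (hms.eventually (gt_mem_nhds (show (0 : ℝ) < r / 480 by positivity))).mono fun _ h => h.le
  have hm2 : ∀ᶠ M : ℕ in atTop, ms M ≤ ε / (12 * (C + 1)) :=
    (hms.eventually (gt_mem_nhds (show (0 : ℝ) < ε / (12 * (C + 1)) by positivity))).mono
      fun _ h => h.le
  filter_upwards [hH om hom, hm1, hm2, eventually_gt_atTop 0] with M hM h1 h2 hM0
  have h0 := ms_pos hM0
  obtain ⟨G, hG, hp, mq, wn, hmq, hwn, hone⟩ := hM
  have h3 : ms M * (12 * (C + 1)) ≤ ε := by rwa [le_div_iff₀ (by positivity)] at h2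
  refine calWorld_mk hε hG hp (mq := mq) (wn := wn) (fun γ => hmq γ (ε / 4) (by positivity))
    (hwn.mono (fun _ => le_rfl) (ENNReal.ofReal_le_ofReal ?_)) ?_
  · nlinarith [mul_nonneg hC h0.le]
  · intro T hT i hi z e he h4 h5 h6
    have h7 := hone T hT i hi z e he h4 h5 h6
    refine real_step (δ := 6 * ms M) (c := C * ms M) (t'' := 12 * om) (norm_nonneg z) he hE hD
      (by positivity) (by linarith) h7 ?_
    nlinarith [mul_nonneg hC h0.le]

end Vale.Agent.P148.R2.H953
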