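import Vale.Agent.P148.R2.H953.Cal8c
import Vale.Agent.P148.R2.H897.Cal8x
import Vale.Agent.P148.R2.H184.CalA5
import Vale.Agent.P148.R2.H219.CalArm4
import Vale.Agent.P148.R2.H897.CalV5

/-!
# P148, row CAL: the calibration

`cal8` : the input `F.CalWorld` of the consumer `H598.row_lln_of_world` for the scene of the comb.
-/

set_option linter.unusedSectionVars false

open Set Function Relation Metric Filter
open scoped Classical ENNReal
open Vale.Agent.P148.R2.H258 Vale.Agent.P148.R2.H258.Tri Vale.Agent.P148.R2.H659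
  Vale.Agent.P148.R2.H871 Vale.Agent.P148.R2.H592
  Vale.Agent.P148.R2.H184 Vale.Agent.P148.R2.H203
  Vale.Agent.P148.R2.H251 Vale.Agent.P148.R2.H838 Vale.Agent.P148.R2.H897
open _root_.P148 _root_.P148.H729

namespace Vale.Agent.P148.R2.H953

open Vale.Agent.P148.R2.N (ms nc ms_pos)
open Vale.Agent.P148.R2.H566 (W0 Scene Ev EvMean EvZero)
open Vale.Agent.P148.R2.H609 (TP piX)
open Vale.Agent.P148.R2.H172 (Frame FScene GoodT fsc fscOf fsc_eq mc exists_goodT)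
open Vale.Agent.P148.R2.H959 (Mrk ag bg mk0 mk1 mk2 CalB)
open Vale.Agent.P148.R2.H995 (nsup Zn calT)
open Vale.Agent.P148.R2.H291 (site bR SiteOK GEnv CT InEnv)
open Vale.Agent.P148.R2.H530 (ArmLe)
open Vale.Agent.P148.R2.H598 (dv)

universe u

/-- **The calibration.** -/
theorem cal8 {τ : ℂ} {κ₀ : ℝ} {Θ : Dt → ℂ} (hΘ : Wt τ κ₀ Θ) (him : 0 < τ.im) :
    ∃ κ C₁ : ℝ, 0 < κ ∧ 0 ≤ C₁ ∧ ∀ ε : ℝ, 0 < ε → ∀ᶠ M in atTop,
      F.CalWorld.{u} (fun M T => (fsc M T).toScene) (fun M T i k => (fsc M T).cv Θ i k)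
        κ C₁ ε M := by
  obtain ⟨r, hr0, hr1, harm⟩ := H530.exists_r0.{u} (ω := 1 / 2) (by norm_num) (r₁ := 1) one_pos
  obtain ⟨c, hc, hgood⟩ := exists_goodT.{u}
  obtain ⟨a, ha, hK⟩ := exists_Kr.{u}
  obtain ⟨C', hC', hwn⟩ := ev_wnV.{u} hΘ
  refine ⟨r / 8, 12, by positivity, by norm_num, calWorld_top (E := CT κ₀ (2 * 3)) (D0 := 8)
    (C := max 24 C') hr0 (CT_nonneg' _ _) (by norm_num) (by positivity) ?_⟩
  intro om hom
  obtain ⟨ρ, hρ0, hρ1, hρ⟩ := H530.exists_rho.{u} hom (ρ₁ := 1 / 20) (by norm_num) 24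
  filter_upwards [hρ, H530.ms_small (a := r / 30) (by positivity),
    H530.ms_small (a := ρ / 60) (by positivity), eventually_ge_atTop 120] with M h1 h2 h3 hM
  have hM0 : 0 < M := by omega
  have h0 := ms_pos hM0
  have hms : ms M ≤ 1 := N.ms_le_one
  obtain ⟨G, hG, hGw⟩ := hwn M (by omega)
  refine ⟨fun T => ((GoodT c M T ∧ GEnv κ₀ Θ 3 (ms M / 1000) ∅ T) ∧
      (ArmLe T (2 * r) (1 / 2) (1 / 2) ∧ Kr a T)) ∧ (G T ∧ H112.ThkE T M Θ (CT κ₀ 2 * ms M ^ 2)) ∧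
      (ArmLe T (8 * ρ) (1 / 2) om ∧ ArmLe T (2 * ρ) (1 / 2) om ∧
        ArmLe T (24 * ms M) (ρ / 2) om), ?_, ?_, fun γ T i => mqA M ρ a Θ γ T i,
      fun T i => wnV (fsc M T) κ₀ Θ i, ?_, ?_, ?_⟩
  · exact (((hgood M hM0).and (H291.ev_gEnv.{u} hΘ (by norm_num) (by positivity) ∅
      (by simp))).and (harm.and hK)).and ((hG.and (H112.ev_thkE hΘ hM0)).and h1)
  · rintro T ⟨⟨⟨h4, -⟩, -⟩, -⟩
    show ∑ i, (fsc M T).p i = 1
    rw [fsc_eq hM0 h4.site]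
    exact h4.sum_p hc hM0
  · intro γ
    refine (evZero_mqA.{u} hΘ hM0 hc ha ρ γ).mono fun T => iSup_le fun hT => ?_
    exact le_iSup (fun _ : GoodT c M T => ∑ i, (fsc M T).p i * mqA M ρ a Θ γ T i) hT.1.1.1
  · refine evMean_of_le fun T hT => (hGw T hT.2.1.1).trans (ENNReal.ofReal_le_ofReal ?_)
    exact mul_le_mul_of_nonneg_right (le_max_right _ _) h0.le
  · rintro T ⟨⟨⟨h4, h5⟩, h6, h7⟩, ⟨-, h8⟩, h9, h10, h11⟩
    have key : ∀ S : FScene M, S = fscOf hM0 h4.site.hull → ∀ i : S.ι, S.p i ≠ 0 →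
        OneIn M (fun k => S.cv Θ i k) r (CT κ₀ (2 * 3)) 8 (max 24 C') om
          (fun γ => mqA M ρ a Θ γ T i) (wnV S κ₀ Θ i) := by
      intro S hS
      subst hS
      intro i hi
      let inst : Fintype (site T 9) := H172.fX h4.site.hull
      obtain ⟨F, hF⟩ := h4.exists_fr hM0 hi (by omega)
      have hcan : F.Can := (fscOf hM0 h4.site.hull).can i F hF
      obtain ⟨s₁, s₂, O3, h3', hB⟩ := H959.scene_calB h4 hM0 hi (by omega) (m := 5) (by omega) F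
      refine oneIn_scene h4 hM0 hi hM hB hΘ him h5 hr1 (by linarith) h6 (ρ := ρ) (by linarith)
        (by norm_num) (nr := fun u v => dist u.1 v.1 ≤ ρ) ?_ ?_ ?_
      · exact fun γ => H219.hA_scene h4 hM0 (by omega) hB hom.le (by linarith) hρ1 h11 h10 h9 γ
      · exact fun γ t ht hmq f₁ hf => hU_scene h4 hM0 hi (by omega) hB ha h7 hρ0 ht
          (fun u v huv => (not_le.1 huv).le) hmq f₁ hf
      · exact H897.hV_scene h4 hM0 hi hM hcan hB hΘ h8 (le_max_left _ _) (by linarith)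
    exact fun i hi => key (fsc M T) (fsc_eq hM0 h4.site) i hi

end Vale.Agent.P148.R2.H953
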