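import Vale.Agent.P148.R2.H172.N3b
import Vale.Agent.P148.R2.H291.Env
import Vale.Agent.P148.R2.H251.W3f

/-!
# P148, row CAL: arms of the three-class world

Under a fair colouring of the vertices of a contraction, the colours of a set of free sites are
fair; a monochromatic free path between two sets is an arm of helper847.
-/

open Set Metric Filter Function ProbabilityTheory MeasureTheory
open Vale.Agent.P148.R2.H258 Vale.Agent.P148.R2.H258.Tri Vale.Agent.P148.R2.H592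
open Vale.Agent.P148.R2.H847 (qpr UArm qpr_mono qpr_compl)
open Vale.Agent.P148.R2.H838 (Joined)

namespace Vale.Agent.P148.R2.H953

universe u

/-- The probability of an event for the black points of a finite set is `qpr`. -/
theorem pr_black {N : Set ℂ} [Fintype N] (Q : Set ℂ → Prop) :
    pr (fun τ : N → Bool => Q {x | ∃ hx : x ∈ N, τ ⟨x, hx⟩ = true}) = qpr N Q := by
  classical
  rw [pr_eq_card]
  unfold qpr
  have e1 : Fintype.card N = N.ncard := by
    rw [← Nat.card_eq_fintype_card, Nat.card_coe_set_eq]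
  rw [e1]
  congr 2
  rw [← Nat.card_coe_set_eq]
  refine Nat.card_eq_of_bijective (fun τ : {τ : N → Bool // Q {x | ∃ hx : x ∈ N,
      τ ⟨x, hx⟩ = true}} => (⟨{x | ∃ hx : x ∈ N, τ.1 ⟨x, hx⟩ = true}, fun x hx => hx.1, τ.2⟩ :
      {W | W ⊆ N ∧ Q W})) ⟨?_, ?_⟩
  · intro τ τ' hτ
    have h1 : {x | ∃ hx : x ∈ N, τ.1 ⟨x, hx⟩ = true} =
        {x | ∃ hx : x ∈ N, τ'.1 ⟨x, hx⟩ = true} := congrArg Subtype.val hτ
    apply Subtype.ext
    funext x
    rw [Bool.eq_iff_iff]
    constructor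
    · intro hx
      have h2 : x.1 ∈ {x | ∃ hx : x ∈ N, τ.1 ⟨x, hx⟩ = true} := ⟨x.2, hx⟩
      rw [h1] at h2
      exact h2.2
    · intro hx
      have h2 : x.1 ∈ {x | ∃ hx : x ∈ N, τ'.1 ⟨x, hx⟩ = true} := ⟨x.2, hx⟩
      rw [← h1] at h2
      exact h2.2
  · rintro ⟨W, hW1, hW2⟩
    have h1 : {x | ∃ hx : x ∈ N, (fun y : N => decide (y.1 ∈ W)) ⟨x, hx⟩ = true} = W := by
      ext x
      constructor
      · rintro ⟨hx, h1⟩
        exact of_decide_eq_true h1
      · intro hx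
        exact ⟨hW1 hx, decide_eq_true hx⟩
    refine ⟨⟨fun x => decide (x.1 ∈ W), ?_⟩, ?_⟩
    · rw [h1]; exact hW2
    · apply Subtype.ext
      exact h1

/-- The sites of `N` of colour `c`. -/
def clr {V3 : Type*} (N : Set ℂ) (f : ℂ → V3) (c : Bool) (σ : V3 → Bool) : Set ℂ :=
  {x | x ∈ N ∧ σ (f x) = c}

/-- **Marginal**: fair colourings of a type in which `N` is embedded. -/
theorem pr_clr {V3 : Type*} [Fintype V3] {N : Set ℂ} (hN : N.Finite) {f : ℂ → V3}
    (hf : ∀ x ∈ N, ∀ y ∈ N, f x = f y → x = y) (c : Bool) (Q : Set ℂ → Prop) :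
    pr (fun σ : V3 → Bool => Q (clr N f c σ)) = qpr N Q := by
  classical
  have : Fintype N := hN.fintype
  have he : Injective (fun x : N => f x.1) := fun x y hxy =>
    Subtype.ext (hf x.1 x.2 y.1 y.2 hxy)
  have key : ∀ Q' : Set ℂ → Prop, pr (fun σ : V3 → Bool => Q' (clr N f true σ)) = qpr N Q' := by
    intro Q'
    rw [← pr_black Q', ← H172.pr_marg he]
    refine pr_congr fun σ => ?_
    have : clr N f true σ = {x | ∃ hx : x ∈ N, (σ ∘ fun x : N => f x.1) ⟨x, hx⟩ = true} := by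
      ext x
      exact ⟨fun h => ⟨h.1, h.2⟩, fun h => ⟨h.1, h.2⟩⟩
    rw [this]
  cases c with
  | true => exact key Q
  | false =>
    rw [← qpr_compl, ← key]
    refine pr_congr fun σ => ?_
    have : clr N f false σ = N \ clr N f true σ := by
      ext x
      constructor
      · rintro ⟨h1, h2⟩
        refine ⟨h1, fun h3 => ?_⟩
        have h4 : σ (f x) = true := h3.2
        rw [h2] at h4
        exact Bool.false_ne_true h4
      · rintro ⟨h1, h2⟩
        refine ⟨h1, ?_⟩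
        by_contra h3
        exact h2 ⟨h1, by simpa using h3⟩
    rw [this]

section

variable {X : Set ℂ} {D : Type*} {T : Tri X D} {V3 : Type*} {π3 : X → V3}

/-- A monochromatic free path is an arm. -/
theorem uarm_of_joined (hadj : ∀ e, nbr X (T.src e).1 (T.tgt e).1) {f : ℂ → V3}
    (hf : ∀ x : X, f x.1 = π3 x) {N : Set ℂ} {σ : V3 → Bool} {c : Bool} {F : Set X}
    (hF : ∀ v ∈ F, v.1 ∈ N) {u v : X} (h : Joined T (fun x => σ (π3 x)) c F u v) {A B : Set ℂ}
    (hu : u.1 ∈ A) (hv : v.1 ∈ B) : UArm X (clr N f c σ) A B := by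
  obtain ⟨h1, h2, l, h3, h4⟩ := h
  refine ⟨u.1, hu, ⟨hF u h1, by rw [hf]; exact h2⟩, v.1, hv, ?_⟩
  clear hu hv h1 h2
  induction h3 with
  | nil v => exact Relation.ReflTransGen.refl
  | cons d w l _ ih =>
    obtain ⟨⟨a1, a2⟩, b1, b2⟩ := h4 d (by simp)
    refine Relation.ReflTransGen.head ⟨hadj d, ⟨hF _ a2, ?_⟩, ⟨hF _ b2, ?_⟩⟩
      (ih fun g hg => h4 g (List.mem_cons_of_mem _ hg))
    · rw [hf]; exact a1
    · rw [hf]; exact b1

/-- **Probability of a monochromatic free path.** -/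
theorem pr_joined_le [Fintype V3] (hadj : ∀ e, nbr X (T.src e).1 (T.tgt e).1) {f : ℂ → V3}
    (hf : ∀ x : X, f x.1 = π3 x) {N : Set ℂ} (hN : N.Finite)
    (hinj : ∀ x ∈ N, ∀ y ∈ N, f x = f y → x = y) (c : Bool) {F : Set X}
    (hF : ∀ v ∈ F, v.1 ∈ N) {A B : Set ℂ} {p : (V3 → Bool) → Prop}
    (hp : ∀ σ, p σ → ∃ u v : X, Joined T (fun x => σ (π3 x)) c F u v ∧ u.1 ∈ A ∧ v.1 ∈ B) :
    pr p ≤ qpr N (fun W => UArm X W A B) := by
  rw [← pr_clr hN hinj c]
  refine pr_mono fun σ hσ => ?_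
  obtain ⟨u, v, h1, h2, h3⟩ := hp σ hσ
  exact uarm_of_joined hadj hf hF h1 h2 h3

end

/-! ### the three-class world on the Delaunay triangulation -/

section hull

open Vale.Agent.P148.R2.H251 (Three3 pi3 TC)
open Vale.Agent.P148.R2.H400 (TP nbr_dt)

variable {X : Set ℂ} {b : ZMod 3 → ℂ} (h : HullTri X b) (x₀ : X) {B : Set ℂ}
  {O3 : Fin 3 → Set ℂ} (h3 : Three3 X B O3)

include h3 in
/-- The probability of a free path of colour `c` of the three-class world from a site in `A` to a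
site in `B'`. -/
theorem pr_arm3 [Fintype (CV X O3)] (c : Bool) {A B' : Set ℂ} {p : (CV X O3 → Bool) → Prop}
    (hp : ∀ σ, p σ → ∃ u v : X, Joined (TP h x₀) (fun x => σ (pi3 X O3 x)) c {v : X | v.1 ∉ B} u v ∧
      u.1 ∈ A ∧ v.1 ∈ B') :
    pr p ≤ qpr (X \ B) (fun W => UArm X W A B') := by
  refine pr_joined_le (T := TP h x₀) (f := cmap X O3) (fun e => nbr_dt h x₀ e)
    (fun _ => rfl) (h.fin.subset sdiff_subset) ?_ c (fun v hv => ⟨v.2, hv⟩) hp
  intro x hx y hy hxy
  have := H251.pi3_inj h3 (u := ⟨x, hx.1⟩) (v := ⟨y, hy.1⟩) hx.2 hxy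
  exact congrArg Subtype.val this

end hull

end Vale.Agent.P148.R2.H953
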