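import Vale.Agent.P148.R2.H258.A10
import Vale.Agent.P148.R2.H953.Tool2

/-!
# P148, row CAL, part 1: displacement of the classes of the outer dart, and calibration

`P d` is the actual position of the tail of the dart `d` (before contraction of the frozen sets).
The class of the outer dart `o` is a simple cycle through its face; outside the face of `o` it goes
from an actual vertex of the class of `apex o` to an actual vertex of the class of `src o`.
-/

open Function ComplexConjugate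
open Vale.Agent.P148.R2.H258 Vale.Agent.P148.R2.H258.Tri

namespace Vale.Agent.P148.R2.H953

variable {V D : Type*} (T : Tri V D)

open Classical in
/-- Displacement of the class of `o` outside the face of `o`. -/
noncomputable def ds [Fintype D] (P : D → ℂ) (σ : V → Bool) (o : D) : ℂ :=
  ∑ g, if T.Rel σ g o ∧ g ≠ o then P (T.nxt (T.nxt g)) - P g else 0

/-- `P` is a function of the free vertices. -/
def FreePos (P : D → ℂ) (o : D) : Prop := ∀ d e, T.src d = T.src e → T.src d ≠ T.src o →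
  T.src d ≠ T.tgt o → T.src d ≠ T.apex o → P d = P e

theorem ds_eq [Fintype D] (hP : T.Planar) {σ : V → Bool} {o : D} (h : T.Mi σ o)
    (hg : T.apex o ≠ T.src o) {P : D → ℂ} (hf : FreePos T P o) :
    ∃ f l : D, T.Rel σ o f ∧ T.Rel σ o l ∧ f ≠ o ∧ l ≠ o ∧ T.src f = T.apex o ∧
      T.apex l = T.src o ∧ ds T P σ o = P (T.nxt (T.nxt l)) - P f := by
  classical
  obtain ⟨m, f, hm, h0, hfm, hs, hinj, hrel, hnd⟩ := T.class_cycle hP h hg
  have hm2 : 2 ≤ m := by
    by_contra hc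
    have : m = 1 := by omega
    subst this
    have := hs 0 (by omega)
    rw [hfm, h0] at this
    exact hg this.symm
  have hfi : ∀ i < m, ∀ k < m, f i = f k → i = k := fun i hi k hk hik =>
    hinj i hi k hk (by rw [hik])
  have hne : ∀ i, 1 ≤ i → i < m → f i ≠ o := by
    intro i h1 h2 h3
    have := hfi i h2 0 (by omega) (by rw [h3, h0])
    omega
  have hcol : ∀ i < m, σ (T.src (f i)) = σ (T.src o) := by
    intro i hi
    exact (T.rel_col ((hrel _).2 ⟨i, hi, rfl⟩)).1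
  -- the sum over the cycle
  have hsum : ds T P σ o = ∑ i ∈ Finset.Ico 1 m, (P (T.nxt (T.nxt (f i))) - P (f i)) := by
    unfold ds
    rw [← Finset.sum_filter]
    have himg : Finset.univ.filter (fun g => T.Rel σ g o ∧ g ≠ o) =
        (Finset.Ico 1 m).image f := by
      ext g
      simp only [Finset.mem_filter, Finset.mem_univ, true_and, Finset.mem_image, Finset.mem_Ico]
      constructor
      · rintro ⟨h1, h2⟩
        obtain ⟨i, hi, rfl⟩ := (hrel g).1 (T.rel_symm h1)
        refine ⟨i, ⟨?_, hi⟩, rfl⟩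
        rcases Nat.eq_zero_or_pos i with h3 | h3
        · subst h3; exact absurd h0 h2
        · exact h3
      · rintro ⟨i, ⟨h1, h2⟩, rfl⟩
        exact ⟨T.rel_symm ((hrel _).2 ⟨i, h2, rfl⟩), hne i h1 h2⟩
    rw [himg, Finset.sum_image]
    intro i hi k hk hik
    have hi' := Finset.mem_Ico.1 hi
    have hk' := Finset.mem_Ico.1 hk
    exact hfi i hi'.2 k hk'.2 hik
  have hstep : ∀ i, 1 ≤ i → i + 1 < m → P (T.nxt (T.nxt (f i))) = P (f (i + 1)) := by
    intro i h1 h2
    have e1 : T.src (T.nxt (T.nxt (f i))) = T.src (f (i + 1)) := by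
      rw [hs i (by omega)]; rfl
    refine hf _ _ e1 ?_ ?_ ?_
    · rw [e1]
      intro h3
      have := hinj (i + 1) h2 0 (by omega) (by rw [h3, h0])
      omega
    · rw [e1]
      intro h3
      have := hcol (i + 1) h2
      rw [h3] at this
      exact h.1 this.symm
    · rw [e1]
      intro h3
      have h4 := hs 0 (by omega)
      rw [h0, ← h3, zero_add] at h4
      have := hinj 1 (by omega) (i + 1) h2 h4
      omega
  have htel : ∀ k, 1 ≤ k → k < m → ∑ i ∈ Finset.Ico 1 (k + 1), (P (T.nxt (T.nxt (f i))) - P (f i)) =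
      P (T.nxt (T.nxt (f k))) - P (f 1) := by
    intro k hk
    induction k with
    | zero => omega
    | succ k ih =>
      intro hk2
      rcases Nat.eq_zero_or_pos k with h3 | h3
      · subst h3
        simp
      · rw [Finset.sum_Ico_succ_top (by omega), ih h3 (by omega), hstep k h3 hk2]
        ring
  obtain ⟨p, rfl⟩ : ∃ p, m = p + 1 := ⟨m - 1, by omega⟩
  refine ⟨f 1, f p, (hrel _).2 ⟨1, by omega, rfl⟩, (hrel _).2 ⟨p, by omega, rfl⟩,
    hne 1 le_rfl (by omega), hne p (by omega) (by omega), ?_, ?_, ?_⟩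
  · have := hs 0 (by omega)
    rwa [h0] at this
  · have := hs p (by omega)
    rw [hfm] at this
    exact this.symm
  · rw [hsum, htel p (by omega) (by omega)]

theorem rel_tgt_walk {σ : V → Bool} {o g : D} (h : T.Rel σ o g) :
    ∃ l, T.Walk (T.tgt o) (T.tgt g) l ∧
    ∀ e ∈ l, σ (T.src e) = σ (T.tgt o) ∧ σ (T.tgt e) = σ (T.tgt o) := T.arm_tgt h

/-! ### the algebra of the calibration -/

/-- If the three means are `S, τ S, τ² S` and are all `ε`-close to `c` times the displacements,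
then `c` times the twisted sum of the displacements is small. -/
theorem cal_alg {τ S c D0 D1 D2 : ℂ} (hτ : τ ^ 2 + τ + 1 = 0) {ε : ℝ}
    (h0 : ‖S - c * D0‖ ≤ ε) (h1 : ‖τ * S - c * D1‖ ≤ ε) (h2 : ‖τ ^ 2 * S - c * D2‖ ≤ ε) :
    ‖c‖ * ‖D0 + τ * D1 + τ ^ 2 * D2‖ ≤ 3 * ε := by
  have hn := norm_tau hτ
  have h3 := tau_pow_three hτ
  have e : c * (D0 + τ * D1 + τ ^ 2 * D2) =
      -((S - c * D0) + τ * (τ * S - c * D1) + τ ^ 2 * (τ ^ 2 * S - c * D2)) := by
    linear_combination S * hτ + S * τ * h3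
  rw [← norm_mul, e, norm_neg]
  calc ‖(S - c * D0) + τ * (τ * S - c * D1) + τ ^ 2 * (τ ^ 2 * S - c * D2)‖
      ≤ ‖(S - c * D0)‖ + ‖τ * (τ * S - c * D1)‖ + ‖τ ^ 2 * (τ ^ 2 * S - c * D2)‖ := by
        refine (norm_add_le _ _).trans ?_
        gcongr
        exact norm_add_le _ _
    _ ≤ ε + ε + ε := by
        rw [norm_mul, norm_mul, norm_pow, hn, one_mul, one_pow, one_mul]
        linarith
    _ = 3 * ε := by ring

theorem cal_alg_re {τ S c D0 D1 D2 : ℂ} (hτ : τ ^ 2 + τ + 1 = 0) {ε m : ℝ} 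
    (h0 : ‖S - c * D0‖ ≤ ε) (h1 : ‖τ * S - c * D1‖ ≤ ε) (h2 : ‖τ ^ 2 * S - c * D2‖ ≤ ε)
    (hm : m ≤ (D0 + τ * D1 + τ ^ 2 * D2).re) : ‖c‖ * m ≤ 3 * ε := by
  refine (mul_le_mul_of_nonneg_left ?_ (norm_nonneg c)).trans (cal_alg hτ h0 h1 h2)
  exact hm.trans ((le_abs_self _).trans (Complex.abs_re_le_norm _))

/-! ### geometry of the functional in a square

Coordinates: the square is `[0, W] × [0, W]`; bottom side, right side, and the rest (left and top).
-/

/-- The cube root of unity. -/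
theorem tau_re_im {τ : ℂ} (hτ : τ ^ 2 + τ + 1 = 0) (hi : 0 < τ.im) :
    τ.re = -(1 / 2) ∧ τ.im = Real.sqrt 3 / 2 := by
  have h1 : τ.re = -(1/2) := by
    have := congrArg Complex.im hτ
    simp [pow_two] at this
    have h2 : τ.im * (2 * τ.re + 1) = 0 := by linarith
    rcases mul_eq_zero.1 h2 with h3 | h3
    · exact absurd h3 hi.ne'
    · linarith
  refine ⟨h1, ?_⟩
  have h2 := congrArg Complex.re hτ
  simp [pow_two] at h2
  rw [h1] at h2
  have h3 : τ.im ^ 2 = 3 / 4 := by nlinarith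
  have h4 : (Real.sqrt 3 / 2) ^ 2 = 3 / 4 := by
    rw [div_pow, Real.sq_sqrt (by norm_num)]; norm_num
  exact (pow_left_inj₀ hi.le (by positivity) two_ne_zero).1 (h3.trans h4.symm)

theorem sqrt3_bounds : (1.7 : ℝ) < Real.sqrt 3 ∧ Real.sqrt 3 < 1.8 := by
  constructor
  · rw [Real.lt_sqrt (by norm_num)]; norm_num
  · rw [Real.sqrt_lt' (by norm_num)]; norm_num

/-- Displacement from the bottom side to the right side... first pattern: from the left or top part
to the right side. -/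
theorem geo0 {x y : ℂ} {W δ : ℝ} (hx : x.re ≤ W + δ) (hy : W - δ ≤ y.re) :
    -(2 * δ) ≤ (y - x).re := by
  rw [Complex.sub_re]; linarith

/-- Second pattern: from the right side to the bottom side. -/
theorem geo1 {τ : ℂ} (hτ : τ ^ 2 + τ + 1 = 0) (hi : 0 < τ.im) {x y : ℂ} {W δ : ℝ} (hδ : 0 ≤ δ)
    (hx1 : W - δ ≤ x.re) (hx2 : -δ ≤ x.im) (hy1 : y.re ≤ W + δ) (hy2 : y.im ≤ δ) :
    -(3 * δ) ≤ (τ * (y - x)).re := by
  obtain ⟨h1, h2⟩ := tau_re_im hτ hi
  have h3 := sqrt3_bounds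
  rw [Complex.mul_re, Complex.sub_re, Complex.sub_im, h1, h2]
  nlinarith [h3.1, h3.2]

/-- Third pattern: from the bottom side to the left or top part. -/
theorem geo2 {τ : ℂ} (hτ : τ ^ 2 + τ + 1 = 0) (hi : 0 < τ.im) {x y : ℂ} {W δ r : ℝ} (hδ : 0 ≤ δ)
    (hW : 0 ≤ W) (hx1 : r ≤ x.re) (hx2 : x.im ≤ δ)
    (hy : (y.re ≤ δ ∧ -δ ≤ y.im) ∨ (W - δ ≤ y.im ∧ y.re ≤ W + δ)) :
    r / 2 - 4 * δ ≤ (τ ^ 2 * (y - x)).re := by
  obtain ⟨h1, h2⟩ := tau_re_im hτ hi
  have h3 := sqrt3_bounds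
  have h4 : (τ ^ 2).re = -(1 / 2) := by
    have : τ ^ 2 = -τ - 1 := by linear_combination hτ
    rw [this]; simp [h1]; norm_num
  have h5 : (τ ^ 2).im = -(Real.sqrt 3 / 2) := by
    have : τ ^ 2 = -τ - 1 := by linear_combination hτ
    rw [this]; simp [h2]
  rw [Complex.mul_re, Complex.sub_re, Complex.sub_im, h4, h5]
  rcases hy with ⟨h6, h7⟩ | ⟨h6, h7⟩
  · nlinarith [h3.1, h3.2]
  · nlinarith [h3.1, h3.2]

end Vale.Agent.P148.R2.H953
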