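import Vale.Agent.P148.R2.H953.Cal1

/-!
# P148, row CAL, part 2: lower bound of the twisted displacement in a square

The outer dart `o` has `src o` = the right side `A`, `tgt o` = the bottom side `B`, `apex o` = the
left and top sides `C` (clockwise order). The three patterns are the darts `o`, `nxt o`,
`nxt (nxt o)`.
-/

open Function ComplexConjugate
open Vale.Agent.P148.R2.H258 Vale.Agent.P148.R2.H258.Tri

namespace Vale.Agent.P148.R2.H953

set_option linter.unusedSectionVars false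

variable {V D : Type*} (T : Tri V D)

/-- Mean displacement, given that `o` is a minority dart. -/
noncomputable def md [Fintype V] [Fintype D] (P : D → ℂ) (o : D) : ℂ :=
  4 / 2 ^ Fintype.card V * (by classical exact ∑ σ : V → Bool, ds T P σ o)

theorem ds_not [Fintype D] {P : D → ℂ} {σ : V → Bool} {o : D} (h : ¬ T.Mi σ o) :
    ds T P σ o = 0 := by
  classical
  unfold ds
  refine Finset.sum_eq_zero fun g _ => ?_
  rw [if_neg]
  rintro ⟨h1, -⟩
  exact h h1.2.1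

theorem freePos_nxt {P : D → ℂ} {o : D} (h : FreePos T P o) : FreePos T P (T.nxt o) := by
  intro d e h1 h2 h3 h4
  refine h d e h1 ?_ ?_ ?_
  · rwa [T.apex_nxt] at h4
  · rwa [T.src_nxt'] at h2
  · rwa [T.tgt_nxt] at h3

/-- The positions of the frozen vertices which are seen. -/
structure SqPos (P : D → ℂ) (o : D) (W δ : ℝ) : Prop where
  A : ∀ g, T.Good g → ¬ T.InFace o g → T.src g = T.src o →
    W - δ ≤ (P g).re ∧ (P g).re ≤ W + δ ∧ -δ ≤ (P g).im ∧ (P g).im ≤ W + δ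
  B : ∀ g, T.Good g → ¬ T.InFace o g → T.src g = T.tgt o →
    -δ ≤ (P g).re ∧ (P g).re ≤ W + δ ∧ -δ ≤ (P g).im ∧ (P g).im ≤ δ
  C : ∀ g, T.Good g → ¬ T.InFace o g → T.src g = T.apex o →
    (P g).re ≤ W + δ ∧ (((P g).re ≤ δ ∧ -δ ≤ (P g).im) ∨ (W - δ ≤ (P g).im ∧ (P g).re ≤ W + δ))

/-- A mean over the colourings with `o` a minority dart, lower bound. -/
theorem mean_ge [Fintype V] {o : D} (ho : T.Good o) {v : (V → Bool) → ℝ} {a : ℝ}
    (h0 : ∀ σ, ¬ T.Mi σ o → v σ = 0) (h1 : ∀ σ, T.Mi σ o → a ≤ v σ) :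
    a ≤ 4 * ex v := by
  classical
  have hm := T.mi_sum ho
  have h2 : (4 : ℝ) / 2 ^ Fintype.card V * (∑ σ : V → Bool, if T.Mi σ o then (1 : ℝ) else 0) = 1 := by
    have : ((4 / 2 ^ Fintype.card V * (∑ σ : V → Bool, if T.Mi σ o then (1 : ℝ) else 0) : ℝ) : ℂ)
        = 1 := by
      rw [← hm]
      push_cast
      congr 1
      refine Finset.sum_congr rfl fun σ _ => ?_
      split_ifs <;> simp
    exact_mod_cast this
  have h3 : ∑ σ : V → Bool, (a * if T.Mi σ o then (1 : ℝ) else 0) ≤ ∑ σ : V → Bool, v σ := by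
    refine Finset.sum_le_sum fun σ _ => ?_
    by_cases h : T.Mi σ o
    · rw [if_pos h, mul_one]; exact h1 σ h
    · rw [if_neg h, mul_zero, h0 σ h]
  rw [← Finset.mul_sum] at h3
  unfold ex
  calc a = a * (4 / 2 ^ Fintype.card V *
        (∑ σ : V → Bool, if T.Mi σ o then (1 : ℝ) else 0)) := by rw [h2, mul_one]
    _ = 4 / 2 ^ Fintype.card V * (a * (∑ σ : V → Bool, if T.Mi σ o then (1 : ℝ) else 0)) := by ring
    _ ≤ 4 / 2 ^ Fintype.card V * ∑ σ : V → Bool, v σ :=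
        mul_le_mul_of_nonneg_left h3 (by positivity)
    _ = 4 * ((∑ σ : V → Bool, v σ) / 2 ^ Fintype.card V) := by ring

theorem md_re [Fintype V] [Fintype D] (P : D → ℂ) (o : D) (z : ℂ) :
    (z * md T P o).re = 4 * ex fun σ => (z * ds T P σ o).re := by
  classical
  unfold md ex
  have e1 : z * (4 / 2 ^ Fintype.card V * ∑ σ : V → Bool, ds T P σ o) =
      ((4 / 2 ^ Fintype.card V : ℝ) : ℂ) * ∑ σ : V → Bool, z * ds T P σ o := by
    rw [← Finset.mul_sum]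
    push_cast
    ring
  have e2 : (z * (4 / 2 ^ Fintype.card V * (∑ σ : V → Bool, ds T P σ o))).re =
      4 / 2 ^ Fintype.card V * ∑ σ : V → Bool, (z * ds T P σ o).re := by
    rw [e1, Complex.re_ofReal_mul, Complex.re_sum]
  rw [e2]
  ring

theorem inFace_of_mi {σ : V → Bool} {o g : D} (h : T.Mi σ o) (hg : T.Mi σ g) (hne : g ≠ o) :
    ¬ T.InFace o g := by
  rintro (h1 | h1 | h1)
  · exact hne h1
  · rw [h1] at hg; exact T.mi_face1 h hg
  · rw [h1] at hg; exact T.mi_face2 h hg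

section

variable [Fintype V] [Fintype D] (hP : T.Planar) {o : D} (ho : T.Good o) {P : D → ℂ}
  (hf : FreePos T P o) {W δ : ℝ} (hδ : 0 ≤ δ) (hW : 0 ≤ W) (hpos : SqPos T P o W δ)
  {τ : ℂ} (hτ : τ ^ 2 + τ + 1 = 0) (hi : 0 < τ.im)
include hP ho hf hδ hpos

theorem ds0_ge {σ : V → Bool} (h : T.Mi σ o) : -(2 * δ) ≤ (ds T P σ o).re := by
  obtain ⟨f, l, hrf, hrl, hfo, hlo, hsf, hal, hds⟩ := ds_eq T hP h ho.2.2 hf
  rw [hds]
  have gf := T.good_of_rel hP hrf ho.2.2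
  have gl := T.good_of_rel hP hrl ho.2.2
  have nf := inFace_of_mi T h hrf.2.1 hfo
  have nl := inFace_of_mi T h hrl.2.1 hlo
  have hC := hpos.C f gf nf hsf
  have hA := hpos.A (T.nxt (T.nxt l)) gl.nxt.nxt
    (by rw [T.inFace_nxt, T.inFace_nxt]; exact nl) hal
  exact geo0 hC.1 hA.1

include hτ hi

theorem ds1_ge {σ : V → Bool} (h : T.Mi σ (T.nxt o)) :
    -(3 * δ) ≤ (τ * ds T P σ (T.nxt o)).re := by
  have ho' := ho.nxt
  obtain ⟨f, l, hrf, hrl, hfo, hlo, hsf, hal, hds⟩ := ds_eq T hP h ho'.2.2 (freePos_nxt T hf)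
  rw [hds]
  have gf := T.good_of_rel hP hrf ho'.2.2
  have gl := T.good_of_rel hP hrl ho'.2.2
  have nf := inFace_of_mi T h hrf.2.1 hfo
  have nl := inFace_of_mi T h hrl.2.1 hlo
  have key : ∀ g, T.InFace (T.nxt o) g ↔ T.InFace o g := by
    intro g
    unfold InFace
    rw [T.nxt3]
    tauto
  rw [key] at nf nl
  rw [T.apex_nxt] at hsf
  rw [T.src_nxt'] at hal
  have hA := hpos.A f gf nf hsf
  have hB := hpos.B (T.nxt (T.nxt l)) gl.nxt.nxt
    (by rw [T.inFace_nxt, T.inFace_nxt]; exact nl) hal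
  exact geo1 hτ hi hδ hA.1 hA.2.2.1 hB.2.1 hB.2.2.2

include hW

theorem ds2_ge {σ : V → Bool} (h : T.Mi σ (T.nxt (T.nxt o))) {r : ℝ}
    (hr : ∀ g, T.Rel σ (T.nxt (T.nxt o)) g → g ≠ T.nxt (T.nxt o) → T.src g = T.tgt o →
      r ≤ (P g).re) :
    r / 2 - 4 * δ ≤ (τ ^ 2 * ds T P σ (T.nxt (T.nxt o))).re := by
  have ho' := ho.nxt.nxt
  obtain ⟨f, l, hrf, hrl, hfo, hlo, hsf, hal, hds⟩ := ds_eq T hP h ho'.2.2
    (freePos_nxt T (freePos_nxt T hf))
  rw [hds]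
  have gf := T.good_of_rel hP hrf ho'.2.2
  have gl := T.good_of_rel hP hrl ho'.2.2
  have nf := inFace_of_mi T h hrf.2.1 hfo
  have nl := inFace_of_mi T h hrl.2.1 hlo
  have key : ∀ g, T.InFace (T.nxt (T.nxt o)) g ↔ T.InFace o g := by
    intro g
    unfold InFace
    rw [T.nxt3]
    tauto
  rw [key] at nf nl
  rw [T.apex_nxt2] at hsf
  rw [T.src_nxt2] at hal
  have hB := hpos.B f gf nf hsf
  have hC := hpos.C (T.nxt (T.nxt l)) gl.nxt.nxt
    (by rw [T.inFace_nxt, T.inFace_nxt]; exact nl) hal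
  exact geo2 hτ hi hδ hW (hr f hrf hfo hsf) hB.2.2.2 hC.2

/-- **Calibration, lower bound.** `bad` is the event that the crossing from the bottom side `B` to
the left and top side `C` closest to the right side starts within `r` of the left corner. -/
theorem twisted_ge {r : ℝ} (hr : 0 ≤ r) {ε : ℝ}
    (hbad : 4 * (pr fun σ => ∃ g, T.Rel σ (T.nxt (T.nxt o)) g ∧ g ≠ T.nxt (T.nxt o) ∧
      T.src g = T.tgt o ∧ (P g).re < r) ≤ ε) :
    (1 - ε) * (r / 2) - 10 * δ ≤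
      (md T P o + τ * md T P (T.nxt o) + τ ^ 2 * md T P (T.nxt (T.nxt o))).re := by
  classical
  have e0 : -(2 * δ) ≤ (md T P o).re := by
    have h1 := md_re T P o 1
    rw [one_mul] at h1
    rw [h1]
    refine mean_ge T ho (fun σ hσ => ?_) fun σ hσ => ?_
    · rw [ds_not T hσ]; simp
    · rw [one_mul]; exact ds0_ge T hP ho hf hδ hpos hσ
  have e1 : -(3 * δ) ≤ (τ * md T P (T.nxt o)).re := by
    rw [md_re]
    refine mean_ge T ho.nxt (fun σ hσ => ?_) fun σ hσ => ?_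
    · rw [ds_not T hσ]; simp
    · exact ds1_ge T hP ho hf hδ hpos hτ hi hσ
  have e2 : (1 - ε) * (r / 2) - 5 * δ ≤ (τ ^ 2 * md T P (T.nxt (T.nxt o))).re := by
    rw [md_re]
    set bad : (V → Bool) → Prop := fun σ => ∃ g, T.Rel σ (T.nxt (T.nxt o)) g ∧
      g ≠ T.nxt (T.nxt o) ∧ T.src g = T.tgt o ∧ (P g).re < r with hb
    have h1 : r / 2 - 5 * δ ≤ 4 * ex fun σ => (τ ^ 2 * ds T P σ (T.nxt (T.nxt o))).re +
        (if bad σ then r / 2 else 0) := by
      refine mean_ge T ho.nxt.nxt (v := fun σ => (τ ^ 2 * ds T P σ (T.nxt (T.nxt o))).re +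
        (if bad σ then r / 2 else 0)) (fun σ hσ => ?_) fun σ hσ => ?_
      · have : ¬ bad σ := by
          rintro ⟨g, hg, -⟩
          exact hσ hg.1
        simp only [ds_not T hσ, if_neg this]
        simp
      · by_cases hbσ : bad σ
        · have h3 : ∀ g, T.Rel σ (T.nxt (T.nxt o)) g → g ≠ T.nxt (T.nxt o) →
              T.src g = T.tgt o → -δ ≤ (P g).re := by
            intro g hg1 hg2 hg3
            have gg := T.good_of_rel hP hg1 ho.nxt.nxt.2.2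
            have ng := inFace_of_mi T hσ hg1.2.1 hg2
            have ng' : ¬ T.InFace o g := by
              intro hh
              apply ng
              unfold InFace at hh ⊢
              rw [T.nxt3]
              tauto
            exact (hpos.B g gg ng' hg3).1
          have h4 := ds2_ge T hP ho hf hδ hW hpos hτ hi hσ h3
          simp only [if_pos hbσ]
          linarith
        · have h3 : ∀ g, T.Rel σ (T.nxt (T.nxt o)) g → g ≠ T.nxt (T.nxt o) →
              T.src g = T.tgt o → r ≤ (P g).re := by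
            intro g hg1 hg2 hg3
            by_contra hlt
            exact hbσ ⟨g, hg1, hg2, hg3, not_le.1 hlt⟩
          have h4 := ds2_ge T hP ho hf hδ hW hpos hτ hi hσ h3
          simp only [if_neg hbσ]
          linarith
    rw [ex_add] at h1
    have h2 : ex (fun σ => if bad σ then r / 2 else 0) = r / 2 * pr bad := by
      unfold pr
      rw [← ex_smul]
      exact ex_congr fun σ => by by_cases h : bad σ <;> simp [h]
    rw [h2] at h1
    nlinarith [hbad, hr, mul_le_mul_of_nonneg_left hbad (div_nonneg hr zero_le_two)]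
  rw [Complex.add_re, Complex.add_re]
  linarith

end

/-- **Calibration.** If the three patterns satisfy the law of large numbers with one constant `c` in
mean then `c` is small. -/
theorem cal [Fintype V] [Fintype D] (hP : T.Planar) {o : D} (ho : T.Good o) {P : D → ℂ}
    (hf : FreePos T P o) {W δ : ℝ} (hδ : 0 ≤ δ) (hW : 0 ≤ W) (hpos : SqPos T P o W δ)
    {τ : ℂ} (hτ : τ ^ 2 + τ + 1 = 0) (hi : 0 < τ.im) {r : ℝ} (hr : 0 ≤ r) {ε : ℝ}
    (hbad : 4 * (pr fun σ => ∃ g, T.Rel σ (T.nxt (T.nxt o)) g ∧ g ≠ T.nxt (T.nxt o) ∧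
      T.src g = T.tgt o ∧ (P g).re < r) ≤ ε)
    {Θ : D → ℂ} (hΘ : ∀ d, Θ (T.nxt d) = τ ^ 2 * Θ d) (hΘo : Θ o = 0) {c : ℂ} {ε' : ℝ}
    (h0 : ‖T.EE o Θ - c * md T P o‖ ≤ ε') (h1 : ‖T.EE (T.nxt o) Θ - c * md T P (T.nxt o)‖ ≤ ε')
    (h2 : ‖T.EE (T.nxt (T.nxt o)) Θ - c * md T P (T.nxt (T.nxt o))‖ ≤ ε') :
    ‖c‖ * ((1 - ε) * (r / 2) - 10 * δ) ≤ 3 * ε' := by
  obtain ⟨a1, a2⟩ := T.EE_rot' hP hτ hΘ hΘo
  rw [a1] at h1
  rw [a2] at h2
  exact cal_alg_re hτ h0 h1 h2 (twisted_ge T hP ho hf hδ hW hpos hτ hi hr hbad)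

/-- From a law of large numbers in `L¹` to the mean form. -/
theorem EE_sub_md_le [Fintype V] [Fintype D] {P : D → ℂ} {o : D} {Θ : D → ℂ} {c : ℂ} {ε : ℝ}
    (h : 4 * (ex fun σ => ‖T.cls σ o Θ - c * ds T P σ o‖) ≤ ε) :
    ‖T.EE o Θ - c * md T P o‖ ≤ ε := by
  classical
  refine le_trans ?_ h
  rw [T.EE_eq]
  unfold md ex
  have e : (4 / 2 ^ Fintype.card V * ∑ σ : V → Bool, T.cls σ o Θ -
      c * (4 / 2 ^ Fintype.card V * ∑ σ : V → Bool, ds T P σ o) : ℂ) =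
      ((4 / 2 ^ Fintype.card V : ℝ) : ℂ) * ∑ σ : V → Bool, (T.cls σ o Θ - c * ds T P σ o) := by
    rw [Finset.sum_sub_distrib, ← Finset.mul_sum]
    push_cast
    ring
  have h1 : ‖(4 / 2 ^ Fintype.card V * ∑ σ : V → Bool, T.cls σ o Θ -
      c * (4 / 2 ^ Fintype.card V * ∑ σ : V → Bool, ds T P σ o) : ℂ)‖ ≤
      4 / 2 ^ Fintype.card V * ∑ σ : V → Bool, ‖T.cls σ o Θ - c * ds T P σ o‖ := by
    rw [e, norm_mul, Complex.norm_real, Real.norm_of_nonneg (by positivity)]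
    exact mul_le_mul_of_nonneg_left (norm_sum_le _ _) (by positivity)
  refine h1.trans (le_of_eq ?_)
  ring

open MeasureTheory in
/-- Calibration averaged over the environment: `S, D0, D1, D2` are random, the three means are
exactly `S, τ S, τ² S` in every environment, `c` is a constant. -/
theorem cal_avg {Ω : Type*} [MeasurableSpace Ω] {μ : Measure Ω} {S D0 D1 D2 : Ω → ℂ} {c τ : ℂ}
    (hτ : τ ^ 2 + τ + 1 = 0) (hS : Integrable S μ) (hD0 : Integrable D0 μ) (hD1 : Integrable D1 μ)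
    (hD2 : Integrable D2 μ) {ε m : ℝ} (h0 : ∫ ω, ‖S ω - c * D0 ω‖ ∂μ ≤ ε)
    (h1 : ∫ ω, ‖τ * S ω - c * D1 ω‖ ∂μ ≤ ε) (h2 : ∫ ω, ‖τ ^ 2 * S ω - c * D2 ω‖ ∂μ ≤ ε)
    (hm : m ≤ ∫ ω, (D0 ω + τ * D1 ω + τ ^ 2 * D2 ω).re ∂μ) : ‖c‖ * m ≤ 3 * ε := by
  have e0 : ‖(∫ ω, S ω ∂μ) - c * ∫ ω, D0 ω ∂μ‖ ≤ ε := by
    rw [← integral_const_mul, ← integral_sub hS (hD0.const_mul c)]
    exact (norm_integral_le_integral_norm _).trans h0
  have e1 : ‖τ * (∫ ω, S ω ∂μ) - c * ∫ ω, D1 ω ∂μ‖ ≤ ε := by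
    rw [← integral_const_mul, ← integral_const_mul,
      ← integral_sub (hS.const_mul τ) (hD1.const_mul c)]
    exact (norm_integral_le_integral_norm _).trans h1
  have e2 : ‖τ ^ 2 * (∫ ω, S ω ∂μ) - c * ∫ ω, D2 ω ∂μ‖ ≤ ε := by
    rw [← integral_const_mul, ← integral_const_mul,
      ← integral_sub (hS.const_mul _) (hD2.const_mul c)]
    exact (norm_integral_le_integral_norm _).trans h2
  refine cal_alg_re hτ e0 e1 e2 (hm.trans (le_of_eq ?_))
  have hI : Integrable (fun ω => D0 ω + τ * D1 ω + τ ^ 2 * D2 ω) μ :=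
    (hD0.add (hD1.const_mul τ)).add (hD2.const_mul _)
  have e3 : ∫ ω, (D0 ω + τ * D1 ω + τ ^ 2 * D2 ω).re ∂μ =
      (∫ ω, (D0 ω + τ * D1 ω + τ ^ 2 * D2 ω) ∂μ).re := by
    have := integral_re hI
    simpa using this
  have hI1 : Integrable (fun ω => D0 ω + τ * D1 ω) μ := hD0.add (hD1.const_mul τ)
  have e4 : ∫ ω, (D0 ω + τ * D1 ω + τ ^ 2 * D2 ω) ∂μ =
      ∫ ω, (D0 ω + τ * D1 ω) ∂μ + ∫ ω, τ ^ 2 * D2 ω ∂μ := integral_add hI1 (hD2.const_mul _)
  have e5 : ∫ ω, (D0 ω + τ * D1 ω) ∂μ = ∫ ω, D0 ω ∂μ + ∫ ω, τ * D1 ω ∂μ :=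
    integral_add hD0 (hD1.const_mul τ)
  rw [e3, e4, e5, integral_const_mul, integral_const_mul]

end Vale.Agent.P148.R2.H953
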