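import Vale.Agent.P148.R2.H598.Lln5

/-!
# P148, row CAL: the slope is small

`hcal_of` : the hypothesis `hcal` of `H598.lln_row` (the slope of the law of large numbers tends to
zero) from N5 and the inequality of calibration of one world.
-/

namespace Vale.Agent.P148.R2.H953

open MeasureTheory ProbabilityTheory Filter Topology N Vale.Agent.P148.R2.H504
open _root_.P148 _root_.P148.H729
open Vale.Agent.P148.R2.H566 (UB Ev EvMean Scene)
open Vale.Agent.P148.R2.H598
open scoped ComplexConjugate ENNReal NNReal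

universe u

/-- An event of probability close to one and a function of small upper mean: a good point. -/
theorem exists_good {Ω : Type*} [MeasurableSpace Ω] {P : Measure Ω} [IsProbabilityMeasure P]
    {G : Ω → Prop} (hG : P {ω | ¬ G ω} ≤ ENNReal.ofReal (1 / 4)) {f : Ω → ℝ≥0∞} {c : ℝ}
    (hc : 0 < c) (hf : UB P f (ENNReal.ofReal c)) :
    ∃ ω, G ω ∧ f ω ≤ ENNReal.ofReal (4 * c) := by
  obtain ⟨g, h1, h2, h3⟩ := hf
  by_contra hcon
  push Not at hcon
  have h4 : P {ω | ENNReal.ofReal (4 * c) ≤ g ω} ≤ ENNReal.ofReal (1 / 4) := by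
    have h5 := mul_meas_ge_le_lintegral (μ := P) h1 (ENNReal.ofReal (4 * c))
    have h6 : ENNReal.ofReal (4 * c) * P {ω | ENNReal.ofReal (4 * c) ≤ g ω} ≤
        ENNReal.ofReal (4 * c) * ENNReal.ofReal (1 / 4) := by
      refine h5.trans (h3.trans ?_)
      rw [← ENNReal.ofReal_mul (by positivity)]
      apply ENNReal.ofReal_le_ofReal
      linarith
    exact (ENNReal.mul_le_mul_iff_right (ENNReal.ofReal_pos.2 (by positivity)).ne'
      ENNReal.ofReal_ne_top).1 h6
  have h7 : P {ω | ¬ f ω ≤ g ω} = 0 := h2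
  have h8 : (Set.univ : Set Ω) ⊆ {ω | ¬ G ω} ∪ ({ω | ENNReal.ofReal (4 * c) ≤ g ω} ∪
      {ω | ¬ f ω ≤ g ω}) := by
    intro ω _
    by_cases hω : G ω
    · right
      by_cases hfg : f ω ≤ g ω
      · left
        exact (hcon ω hω).le.trans hfg
      · right
        exact hfg
    · left
      exact hω
  have h9 : (1 : ℝ≥0∞) ≤ ENNReal.ofReal (1 / 4) + (ENNReal.ofReal (1 / 4) + 0) := by
    calc (1 : ℝ≥0∞) = P Set.univ := measure_univ.symm
      _ ≤ _ := measure_mono h8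
      _ ≤ _ := measure_union_le _ _
      _ ≤ _ := add_le_add hG ((measure_union_le _ _).trans (add_le_add h4 h7.le))
  rw [add_zero, ← ENNReal.ofReal_add (by norm_num) (by norm_num)] at h9
  have h10 : (1 : ℝ≥0∞) = ENNReal.ofReal 1 := by simp
  rw [h10, ENNReal.ofReal_le_ofReal_iff (by norm_num)] at h9
  norm_num at h9

/-- **CAL, final form.** `er` contains the plane classes, the windows and the arms; the inequality
of one world is assumed for every complex number `z`. -/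
theorem hcal_of {s : ℕ → Set Pt → Scene} {v : ∀ M T, (s M T).ι → ℕ → ℂ} {q : ℕ}
    {m : ℕ → ℕ → Set Pt → ℂ} {C : ℝ} (hC : 0 ≤ C)
    (hN5 : ∀ᶠ M in atTop, LlnData.{u} s v q m C M) {κ A : ℝ} (hκ : 0 < κ) (hA : 0 ≤ A)
    (hw : ∀ η : ℝ, 0 < η → ∀ᶠ M in atTop, ∃ (G : Set Pt → Prop)
      (er : ∀ T, (s M T).ι → ℝ≥0∞), Ev.{u} G ∧ (∀ T, G T → ∑ i, (s M T).p i = 1) ∧
      EvMean.{u} (fun T => ⨆ _ : G T, ∑ i, (s M T).p i * er T i) (ENNReal.ofReal η) ∧
      ∀ T, G T → ∀ i, (s M T).p i ≠ 0 → ∀ z : ℂ, ENNReal.ofReal (κ * ‖z‖ ^ 2) ≤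
        ENNReal.ofReal A * (er T i + dv M z (v M T i)) + ENNReal.ofReal η)
    {ε : ℝ} (hε : 0 < ε) :
    ∀ᶠ M in atTop, ∃ K : ℝ, ∀ (Ω : Type u) [MeasurableSpace Ω]
      (P : Measure Ω) [IsProbabilityMeasure P] (S : Ω → Set Pt) (lam : ℝ≥0),
      IsColouredPoisson P S lam → K ≤ lam → ‖slope P S M q (m M)‖ ≤ ε := by
  set η : ℝ := κ * ε ^ 2 / (8 * A + 1) with hη
  have hη0 : 0 < η := by positivity
  have h1 : ∀ᶠ M : ℕ in atTop, err C M < η := (tendsto_err C).eventually (gt_mem_nhds hη0)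
  filter_upwards [hN5, hw η hη0, h1] with M hM hM1 hM2
  obtain ⟨G, hG, hp, K, hK⟩ := hM.ub
  obtain ⟨G', er, hG', hp', ⟨K', hK'⟩, hcal⟩ := hM1
  obtain ⟨K'', hK''⟩ := (hG.and hG') (1 / 4) (by norm_num)
  refine ⟨max K (max K' K''), fun Ω _ P _ S lam hS hl => ?_⟩
  have a1 := hK Ω P S lam hS ((le_max_left _ _).trans hl)
  have a2 := hK' Ω P S lam hS (((le_max_left _ _).trans (le_max_right _ _)).trans hl)
  have a3 := hK'' Ω P S lam hS (((le_max_right _ _).trans (le_max_right _ _)).trans hl)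
  set z := slope P S M q (m M) with hz
  have herr : 0 ≤ err C M := by unfold err; positivity
  have a4 := a2.add a1
  rw [← ENNReal.ofReal_add hη0.le herr] at a4
  obtain ⟨ω, ⟨g1, g2⟩, hω⟩ := exists_good (G := fun ω => G (S ω) ∧ G' (S ω)) a3
    (c := η + err C M) (by positivity) a4
  change (⨆ _ : G' (S ω), ∑ i, (s M (S ω)).p i * er (S ω) i) + (⨆ _ : G (S ω), ∑ i,
    (s M (S ω)).p i * dv M z (v M (S ω) i)) ≤ _ at hω
  rw [iSup_pos g1, iSup_pos g2] at hω
  set T := S ω with hT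
  have h3 : ∀ i, (s M T).p i * ENNReal.ofReal (κ * ‖z‖ ^ 2) ≤
      ENNReal.ofReal A * ((s M T).p i * er T i + (s M T).p i * dv M z (v M T i)) +
        (s M T).p i * ENNReal.ofReal η := by
    intro i
    by_cases hi : (s M T).p i = 0
    · rw [hi, zero_mul]; exact zero_le
    · calc (s M T).p i * ENNReal.ofReal (κ * ‖z‖ ^ 2) ≤ (s M T).p i *
          (ENNReal.ofReal A * (er T i + dv M z (v M T i)) + ENNReal.ofReal η) := by
            gcongr
            exact hcal T g2 i hi z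
        _ = _ := by ring
  have h4 : ENNReal.ofReal (κ * ‖z‖ ^ 2) ≤
      ENNReal.ofReal A * (ENNReal.ofReal (4 * (η + err C M))) + ENNReal.ofReal η := by
    calc ENNReal.ofReal (κ * ‖z‖ ^ 2) = ∑ i, (s M T).p i * ENNReal.ofReal (κ * ‖z‖ ^ 2) := by
          rw [← Finset.sum_mul, hp' T g2, one_mul]
      _ ≤ _ := Finset.sum_le_sum fun i _ => h3 i
      _ = ENNReal.ofReal A * (∑ i, (s M T).p i * er T i + ∑ i, (s M T).p i *
          dv M z (v M T i)) + ENNReal.ofReal η := by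
          rw [Finset.sum_add_distrib, ← Finset.mul_sum, Finset.sum_add_distrib, ← Finset.sum_mul,
            hp' T g2, one_mul]
      _ ≤ _ := by gcongr
  rw [← ENNReal.ofReal_mul hA, ← ENNReal.ofReal_add (by positivity) hη0.le,
    ENNReal.ofReal_le_ofReal_iff (by positivity)] at h4
  have h5 : κ * ‖z‖ ^ 2 ≤ κ * ε ^ 2 := by
    have h6 : A * (4 * (η + err C M)) + η ≤ (8 * A + 1) * η := by nlinarith
    have h7 : (8 * A + 1) * η = κ * ε ^ 2 := by
      rw [hη]; field_simp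
    linarith
  have h8 : ‖z‖ ^ 2 ≤ ε ^ 2 := le_of_mul_le_mul_left h5 hκ
  exact le_of_sq_le_sq h8 hε.le

end Vale.Agent.P148.R2.H953
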