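import Vale.Agent.P148.R2.H953.Cal6

/-!
# P148, row CAL: the consumer

`hcal_of_rows` : the slope tends to zero, from four rows about the scenes: plane classes (P),
windows (Wn), value of the closing chains (H) and the inequality of one world (O).
-/

namespace Vale.Agent.P148.R2.H953

open MeasureTheory ProbabilityTheory Filter Topology N Vale.Agent.P148.R2.H504
open _root_.P148 _root_.P148.H729
open Vale.Agent.P148.R2.H566 (UB Ev EvMean EvZero Scene)
open Vale.Agent.P148.R2.H598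
open scoped ComplexConjugate ENNReal NNReal

universe u

/-- The four rows of the calibration for the parameter `om` and the mesh `M`. -/
def CalRows (s : ℕ → Set Pt → Scene) (v : ∀ M T, (s M T).ι → ℕ → ℂ) (r C₁ om : ℝ) (M : ℕ) :
    Prop :=
  ∃ (G : Set Pt → Prop) (mq wn : ∀ T, (s M T).ι → ℝ≥0∞) (hm : ∀ T, (s M T).ι → ℂ → ℝ≥0∞),
    Ev.{u} G ∧ (∀ T, G T → ∑ i, (s M T).p i = 1) ∧
    EvMean.{u} (fun T => ⨆ _ : G T, ∑ i, (s M T).p i * mq T i) (ENNReal.ofReal om) ∧
    EvMean.{u} (fun T => ⨆ _ : G T, ∑ i, (s M T).p i * wn T i) (ENNReal.ofReal om) ∧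
    (∀ T, G T → ∀ i, (s M T).p i ≠ 0 → ∀ z : ℂ,
      hm T i z ≤ ENNReal.ofReal C₁ * (dv M z (v M T i) + wn T i) +
        ENNReal.ofReal (om * ‖z‖ ^ 2)) ∧
    (∀ T, G T → ∀ i, (s M T).p i ≠ 0 → ∀ z : ℂ,
      ENNReal.ofReal (r * ‖z‖ ^ 2) ≤ ENNReal.ofReal C₁ * (mq T i + hm T i z) +
        ENNReal.ofReal (om * (1 + ‖z‖ ^ 2)))

/-- **CAL from its four rows.** -/
theorem hcal_of_rows {s : ℕ → Set Pt → Scene} {v : ∀ M T, (s M T).ι → ℕ → ℂ} {q : ℕ}
    {m : ℕ → ℕ → Set Pt → ℂ} {C : ℝ} (hC : 0 ≤ C)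
    (hN5 : ∀ᶠ M in atTop, LlnData.{u} s v q m C M) {r C₁ : ℝ} (hr : 0 < r) (hC₁ : 0 ≤ C₁)
    (rows : ∀ om : ℝ, 0 < om → ∀ᶠ M in atTop, CalRows.{u} s v r C₁ om M)
    {ε : ℝ} (hε : 0 < ε) :
    ∀ᶠ M in atTop, ∃ K : ℝ, ∀ (Ω : Type u) [MeasurableSpace Ω]
      (P : Measure Ω) [IsProbabilityMeasure P] (S : Ω → Set Pt) (lam : ℝ≥0),
      IsColouredPoisson P S lam → K ≤ lam → ‖slope P S M q (m M)‖ ≤ ε := by
  refine hcal_of hC hN5 (κ := r / 2) (A := C₁ + C₁ ^ 2) (by positivity) (by positivity) ?_ hε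
  intro η hη
  set om : ℝ := min (η / 2) (r / (2 * (C₁ + 1))) with hom
  have hom0 : 0 < om := lt_min (by positivity) (by positivity)
  have hom1 : om ≤ η / 2 := min_le_left _ _
  have hom2 : (C₁ + 1) * om ≤ r / 2 := by
    have h1 : om ≤ r / (2 * (C₁ + 1)) := min_le_right _ _
    rw [le_div_iff₀ (by positivity)] at h1
    linarith
  filter_upwards [rows om hom0] with M hM
  obtain ⟨G, mq, wn, hm, g1, g2, g3, g4, g5, g6⟩ := hM
  refine ⟨G, fun T i => mq T i + wn T i, g1, g2, ?_, ?_⟩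
  · have h1 := g3.add g4
    refine h1.mono (fun T => ?_) ?_
    · refine iSup_le fun hT => ?_
      rw [iSup_pos hT, iSup_pos hT, ← Finset.sum_add_distrib]
      refine le_of_eq (Finset.sum_congr rfl fun i _ => ?_)
      rw [mul_add]
    · rw [← ENNReal.ofReal_add hom0.le hom0.le]
      apply ENNReal.ofReal_le_ofReal
      linarith
  · intro T hT i hi z
    have h1 := g5 T hT i hi z
    have h2 := g6 T hT i hi z
    -- the quadratic terms are absorbed
    have h3 : ENNReal.ofReal (r * ‖z‖ ^ 2) ≤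
        (ENNReal.ofReal (C₁ + C₁ ^ 2) * (mq T i + wn T i + dv M z (v M T i)) +
          ENNReal.ofReal η) + ENNReal.ofReal (r / 2 * ‖z‖ ^ 2) := by
      calc ENNReal.ofReal (r * ‖z‖ ^ 2)
          ≤ ENNReal.ofReal C₁ * (mq T i + (ENNReal.ofReal C₁ * (dv M z (v M T i) + wn T i) +
              ENNReal.ofReal (om * ‖z‖ ^ 2))) + ENNReal.ofReal (om * (1 + ‖z‖ ^ 2)) := by
            refine h2.trans ?_
            gcongr
        _ = ENNReal.ofReal C₁ * mq T i + ENNReal.ofReal (C₁ ^ 2) *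
              (dv M z (v M T i) + wn T i) + (ENNReal.ofReal (C₁ * (om * ‖z‖ ^ 2)) +
              ENNReal.ofReal (om * (1 + ‖z‖ ^ 2))) := by
            have e1 : ENNReal.ofReal (C₁ * (om * ‖z‖ ^ 2)) =
                ENNReal.ofReal C₁ * ENNReal.ofReal (om * ‖z‖ ^ 2) := ENNReal.ofReal_mul hC₁
            have e2 : ENNReal.ofReal (C₁ ^ 2) = ENNReal.ofReal C₁ * ENNReal.ofReal C₁ := by
              rw [pow_two, ENNReal.ofReal_mul hC₁]
            rw [e1, e2]
            ring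
        _ ≤ ENNReal.ofReal (C₁ + C₁ ^ 2) * mq T i + ENNReal.ofReal (C₁ + C₁ ^ 2) *
              (dv M z (v M T i) + wn T i) +
              (ENNReal.ofReal η + ENNReal.ofReal (r / 2 * ‖z‖ ^ 2)) := by
            gcongr ?_ * _ + ?_ * _ + ?_
            · exact ENNReal.ofReal_le_ofReal (by nlinarith)
            · exact ENNReal.ofReal_le_ofReal (by nlinarith)
            · rw [← ENNReal.ofReal_add (by positivity) (by positivity),
                ← ENNReal.ofReal_add (by positivity) (by positivity)]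
              apply ENNReal.ofReal_le_ofReal
              have h4 : 0 ≤ ‖z‖ ^ 2 := by positivity
              nlinarith
        _ = _ := by ring
    have h5 : ENNReal.ofReal (r * ‖z‖ ^ 2) =
        ENNReal.ofReal (r / 2 * ‖z‖ ^ 2) + ENNReal.ofReal (r / 2 * ‖z‖ ^ 2) := by
      rw [← ENNReal.ofReal_add (by positivity) (by positivity)]
      congr 1
      ring
    rw [h5] at h3
    exact (ENNReal.add_le_add_iff_right ENNReal.ofReal_ne_top).1 h3

end Vale.Agent.P148.R2.H953
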