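import Vale.Agent.P148.R2.F.CalEnd2

/-!
# P148, row CAL: the input of the consumer `F.hcal_of_world`

`calWorld_mk` : `F.CalWorld` from three terms of plane classes, one window term, and the inequality of
one world.
-/

set_option linter.unusedSectionVars false

open MeasureTheory Set Metric Filter ProbabilityTheory Topology
open scoped ENNReal NNReal

namespace Vale.Agent.P148.R2.H953

open _root_.P148
open Vale.Agent.P148.R2.H566 (UB Ev EvMean EvZero Scene)
open Vale.Agent.P148.R2.H598 (dv slope LlnData)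

universe u

/-- `F.CalWorld` from plane classes `mq`, windows `wn` and the inequality of one world. -/
theorem calWorld_mk {s : ℕ → Set Pt → Scene} {v : ∀ M T, (s M T).ι → ℕ → ℂ} {κ C₁ ε : ℝ} {M : ℕ}
    (hε : 0 < ε) {G : Set Pt → Prop} (hG : Ev.{u} G) (hp : ∀ T, G T → ∑ i, (s M T).p i = 1)
    {mq : Fin 3 → ∀ T, (s M T).ι → ℝ≥0∞} {wn : ∀ T, (s M T).ι → ℝ≥0∞}
    (hmq : ∀ γ, EvMean.{u} (fun T => ⨆ _ : G T, ∑ i, (s M T).p i * mq γ T i)
      (ENNReal.ofReal (ε / 4)))
    (hwn : EvMean.{u} (fun T => ⨆ _ : G T, ∑ i, (s M T).p i * wn T i) (ENNReal.ofReal (ε / 4)))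
    (hone : ∀ T, G T → ∀ i, (s M T).p i ≠ 0 → ∀ (z : ℂ) (e : ℝ), 0 ≤ e →
      (∀ γ, mq γ T i ≤ ENNReal.ofReal (e ^ 2)) → wn T i ≤ ENNReal.ofReal (e ^ 2) →
      dv M z (v M T i) ≤ ENNReal.ofReal (e ^ 2) → κ * ‖z‖ ≤ C₁ * e + ε * (1 + ‖z‖)) :
    F.CalWorld.{u} s v κ C₁ ε M := by
  refine ⟨G, hG, hp, fun T i => (mq 0 T i + mq 1 T i) + (mq 2 T i + wn T i), ?_, ?_⟩
  · refine (((hmq 0).add (hmq 1)).add ((hmq 2).add hwn)).mono (fun T => ?_) ?_
    · refine iSup_le fun hT => ?_
      rw [iSup_pos hT, iSup_pos hT, iSup_pos hT, iSup_pos hT]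
      rw [← Finset.sum_add_distrib, ← Finset.sum_add_distrib, ← Finset.sum_add_distrib]
      exact Finset.sum_le_sum fun i _ => by rw [mul_add, mul_add, mul_add]
    · rw [← ENNReal.ofReal_add (by positivity) (by positivity),
        ← ENNReal.ofReal_add (by positivity) (by positivity)]
      exact ENNReal.ofReal_le_ofReal (by linarith)
  · intro T hT i hi z e he hE hd
    refine hone T hT i hi z e he (fun γ => ?_) ?_ hd
    · refine le_trans ?_ hE
      have h3 : γ = 0 ∨ γ = 1 ∨ γ = 2 := (by decide : ∀ j : Fin 3, j = 0 ∨ j = 1 ∨ j = 2) γ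
      rcases h3 with rfl | rfl | rfl
      · exact le_add_right le_self_add
      · exact le_add_right le_add_self
      · exact le_add_left le_self_add
    · exact le_trans (le_add_left le_add_self) hE

end Vale.Agent.P148.R2.H953
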