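import Vale.Agent.P148.R2.H251.W3e
import Vale.Agent.P148.R2.H532.Expl

/-!
# P148, row CAL: the windows of the class of the frozen face

`T2 = tmap T (col F r)`: the triangulation with collapsed far sets.  The class of a dart `q` of the
frozen face in the three-class world, together with the part of the main cycle between its ends
which is not collapsed, is exactly one class of `T2`.
-/

open Function
open Vale.Agent.P148.R2.H258 Vale.Agent.P148.R2.H258.Tri Vale.Agent.P148.R2.H659
  Vale.Agent.P148.R2.H871 Vale.Agent.P148.R2.H953 Vale.Agent.P148.R2.H251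

namespace Vale.Agent.P148.R2.H953

variable {V V1 V3 D : Type*}

section cyc

variable {V2 : Type*} {T2 : Tri V2 D}

open Classical in
/-- The value of a class given by a cycle. -/
theorem cls_cycle [Fintype D] (hP : T2.Planar) {τ : V2 → Bool} {N : ℕ} {g : ℕ → D} (hN : 1 ≤ N)
    (hgN : g N = g 0) (hmi : ∀ i < N, T2.Mi τ (g i))
    (hs : ∀ i < N, T2.src (g (i + 1)) = T2.apex (g i))
    (hinj : ∀ i < N, ∀ k < N, T2.src (g i) = T2.src (g k) → i = k)
    (hnd : T2.apex (g 0) ≠ T2.src (g 0))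
    (hw : ∀ i < N, ∃ l, T2.Walk (T2.tgt (g 0)) (T2.tgt (g i)) l ∧
      ∀ e ∈ l, τ (T2.src e) = τ (T2.tgt (g 0)) ∧ τ (T2.tgt e) = τ (T2.tgt (g 0))) (Θ : D → ℂ) :
    T2.cls τ (g 0) Θ = ∑ i ∈ Finset.range N, Θ (g i) := by
  have hrel := T2.cycle_class hP hN hgN hmi hs hinj hnd hw
  have hgi : ∀ i < N, ∀ k < N, g i = g k → i = k := fun i hi k hk hik =>
    hinj i hi k hk (by rw [hik])
  unfold Tri.cls
  rw [← Finset.sum_filter]
  have h6 : (Finset.univ.filter fun e : D => T2.Rel τ e (g 0)) = (Finset.range N).image g := by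
    ext e
    simp only [Finset.mem_filter, Finset.mem_univ, true_and, Finset.mem_image, Finset.mem_range]
    constructor
    · intro h
      obtain ⟨i, hi, rfl⟩ := (hrel e).1 (T2.rel_symm h)
      exact ⟨i, hi, rfl⟩
    · rintro ⟨i, hi, rfl⟩
      exact T2.rel_symm ((hrel (g i)).2 ⟨i, hi, rfl⟩)
  rw [h6, Finset.sum_image]
  intro i hi k hk hik
  exact hgi i (by simpa using hi) k (by simpa using hk) hik

end cyc

variable {T : Tri V D} {T3 : Tri V3 D} {π : V → V1} {O : V1} {w : V → Bool} {c : ℕ → D}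
  {n s₁ s₂ : ℕ} {S : Fin 3 → Set V} {π3 : V → V3} {lab : Fin 3 → V3}
  {ι : Type*} {F : ι → Set V} {r : ι → V}

/-- The index, in the chain `j₁, …`, of the `k`-th near element: `[0, a)` and `[a', L)`. -/
def nidx (a a' k : ℕ) : ℕ := if k < a then k else k - a + a'

theorem nidx_lt {a a' k : ℕ} (h : k < a) : nidx a a' k = k := if_pos h

theorem nidx_ge {a a' k : ℕ} (h : a ≤ k) : nidx a a' k = k - a + a' := if_neg (by omega)

/-- **The class of a dart of the frozen face and the near part of its closing chain**, in the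
triangulation with collapsed far sets. -/
theorem _root_.Vale.Agent.P148.R2.H251.W3.window3 [Fintype D]
    (hW : W3 T T3 π O w c n s₁ s₂ S π3 lab) {σ : V3 → Bool} {q : D}
    {α β : Fin 3} {m : ℕ} {f : ℕ → D} {j₁ i₁ : ℕ}
    (hp : Path3 T T3 π O c n s₁ s₂ σ q α β m f j₁ i₁) (hF : H532.Coll T F r)
    (hfib : ∀ i, ∀ v ∈ F i, π v = O) {σ2 : V → Bool} {K : ℕ}
    (hK : ∀ i, 1 ≤ i → i < m → ∃ k ≤ K, (T3.st σ)^[k] (f 1) = f i)
    (hag : ∀ k ≤ K, σ2 (H532.col F r (T.src ((T3.st σ)^[k] (f 1)))) =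
        σ (T3.src ((T3.st σ)^[k] (f 1))) ∧
      σ2 (H532.col F r (T.tgt ((T3.st σ)^[k] (f 1)))) = σ (T3.tgt ((T3.st σ)^[k] (f 1))))
    (hy : σ2 (H532.col F r (T.src (c j₁))) = σ (T3.src q))
    {a a' : ℕ} (haa : a ≤ a') (haL : a' ≤ gapL n j₁ i₁) (hne : 0 < a + (gapL n j₁ i₁ - a'))
    {b : ι} (hM : ∀ k, a ≤ k → k < a' →
      T.src (cy c n (j₁ + k)) ∈ F b ∧ T.apex (cy c n (j₁ + k)) ∈ F b)
    (hmi : ∀ k < gapL n j₁ i₁, (k < a ∨ a' ≤ k) →
      (H532.tmap T (H532.col F r) hF.fib).Mi σ2 (cy c n (j₁ + k)))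
    (hwk : ∀ k < gapL n j₁ i₁, (k < a ∨ a' ≤ k) →
      ∃ l, (H532.tmap T (H532.col F r) hF.fib).Walk (H532.col F r (T.tgt (f 1)))
        (H532.col F r (T.tgt (cy c n (j₁ + k)))) l ∧
        ∀ e ∈ l, σ2 (H532.col F r (T.src e)) = σ2 (H532.col F r (T.tgt (f 1))) ∧
          σ2 (H532.col F r (T.tgt e)) = σ2 (H532.col F r (T.tgt (f 1))))
    (hone : ∀ k < gapL n j₁ i₁, ∀ l < gapL n j₁ i₁, (k < a ∨ a' ≤ k) → (l < a ∨ a' ≤ l) →
      H532.col F r (T.src (cy c n (j₁ + k))) = H532.col F r (T.src (cy c n (j₁ + l))) → k = l)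
    (hx : ∀ k < gapL n j₁ i₁, (k < a ∨ a' ≤ k) →
      H532.col F r (T.src (f 1)) ≠ H532.col F r (T.src (cy c n (j₁ + k))))
    (Θ : D → ℂ) :
    (H532.tmap T (H532.col F r) hF.fib).cls σ2 (f 1) Θ = ∑ i ∈ Finset.Ico 1 m, Θ (f i) +
      (∑ k ∈ Finset.range a, Θ (cy c n (j₁ + k)) +
        ∑ k ∈ Finset.Ico a' (gapL n j₁ i₁), Θ (cy c n (j₁ + k))) := by
  classical
  set κ := H532.col F r with hκ
  set T2 := H532.tmap T κ hF.fib with hT2
  have hn := hW.ring.pos
  have h2 := hp.two
  set L := gapL n j₁ i₁ with hL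
  set N := a + (L - a') with hNdef
  -- free vertices are not collapsed
  have hfree : ∀ v, π v ≠ O → κ v = v := fun v hv =>
    H532.col_not_mem fun i hi => hv (hfib i v hi)
  have hfroz : ∀ v, π v = O → π (κ v) = O := by
    intro v hv
    by_cases h : ∃ i, v ∈ F i
    · obtain ⟨i, hi⟩ := h
      rw [hκ, hF.col_mem hi]; exact hfib i _ (hF.root i)
    · rw [hκ, H532.col_not_mem (not_exists.1 h)]; exact hv
  have hcyf : ∀ k, π (T.src (cy c n k)) = O := fun k =>
    (hW.ring.fib (Nat.mod_lt _ hn)).1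
  have hxf : π (T.src (f 1)) = O := by
    rw [hp.start]; exact (hW.ring.fib hp.hi).1
  have hyf : π (T.src (c j₁)) = O := (hW.ring.fib hp.hj).1
  -- the collapsed part
  have hMM : κ (T.src (cy c n (j₁ + a))) = κ (T.src (cy c n (j₁ + a'))) := by
    rcases haa.eq_or_lt with h | h
    · rw [h]
    · have h3 : T.src (cy c n (j₁ + a')) ∈ F b := by
        have h4 := (hM (a' - 1) (by omega) (by omega)).2
        have h5 := cy_next hW.ring (j₁ + (a' - 1))
        rw [show j₁ + (a' - 1) + 1 = j₁ + a' by omega] at h5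
        rw [h5]; exact h4
      rw [hκ, hF.col_mem (hM a le_rfl h).1, hF.col_mem h3]
  -- colours of the strand
  have hb1 : T3.Bi σ (f 1) := (hp.mi3 1 (by omega)).bi
  have hit : ∀ k ≤ K, (T.st (σ2 ∘ κ))^[k] (f 1) = (T3.st σ)^[k] (f 1) := fun k hk =>
    st_iter_eq hW.contr hb1 hag hk
  have hsrc : ∀ i, 1 ≤ i → i < m → σ2 (κ (T.src (f i))) = σ (T3.src (f i)) ∧
      σ2 (κ (T.tgt (f i))) = σ (T3.tgt (f i)) := by
    intro i hi1 hi2
    obtain ⟨k, hk, hk'⟩ := hK i hi1 hi2
    have := hag k hk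
    rwa [hk'] at this
  have hapex : ∀ i, 1 ≤ i → i < m → σ2 (κ (T.apex (f i))) = σ (T3.apex (f i)) := by
    intro i hi1 hi2
    rcases Nat.lt_or_ge (i + 1) m with h3 | h3
    · rw [← hp.next i hi1 h3, ← hp.next3 i hi2]
      exact (hsrc (i + 1) (by omega) h3).1
    · have h4 : i = m - 1 := by omega
      have h5 : T3.apex (f i) = T3.src q := by
        rw [← hp.next3 i hi2, show i + 1 = m by omega, hp.last3]
      rw [h5, h4, hp.stop, hy]
  have hmif : ∀ i, 1 ≤ i → i < m → T2.Mi σ2 (f i) := by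
    intro i hi1 hi2
    obtain ⟨a1, a2⟩ := hsrc i hi1 hi2
    have a3 := hapex i hi1 hi2
    have a4 := hp.mi3 i hi2
    refine ⟨?_, ?_⟩
    · change σ2 (κ (T.src (f i))) ≠ σ2 (κ (T.tgt (f i)))
      rw [a1, a2]; exact a4.1
    · change σ2 (κ (T.apex (f i))) = σ2 (κ (T.src (f i)))
      rw [a3, a1]; exact a4.2
  -- the cycle
  set g : ℕ → D := fun i => if i < m - 1 then f (i + 1) else
    if i < m - 1 + N then cy c n (j₁ + nidx a a' (i - (m - 1))) else f 1 with hg
  have g1 : ∀ i < m - 1, g i = f (i + 1) := fun i hi => by simp only [hg, if_pos hi]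
  have g2 : ∀ k < N, g (m - 1 + k) = cy c n (j₁ + nidx a a' k) := by
    intro k hk
    simp only [hg]
    rw [if_neg (by omega), if_pos (by omega), show m - 1 + k - (m - 1) = k by omega]
  have g3 : g (m - 1 + N) = f 1 := by
    simp only [hg]
    rw [if_neg (by omega), if_neg (by omega)]
  have g0 : g 0 = f 1 := g1 0 (by omega)
  have hsplit : ∀ i < m - 1 + N, (i < m - 1) ∨ ∃ k < N, i = m - 1 + k := by
    intro i hi
    rcases Nat.lt_or_ge i (m - 1) with h | h
    · exact Or.inl h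
    · exact Or.inr ⟨i - (m - 1), by omega, by omega⟩
  have hid : ∀ k < N, nidx a a' k < L ∧ (nidx a a' k < a ∨ a' ≤ nidx a a' k) := by
    intro k hk
    rcases Nat.lt_or_ge k a with h | h
    · rw [nidx_lt h]; omega
    · rw [nidx_ge h]; omega
  have hxend : T.src (f 1) = T.src (cy c n (j₁ + L)) := by
    rw [hp.start]
    unfold cy
    rw [hL, gapL_end hp.hi hp.hj]
  -- the first element after the path
  have hfirst : κ (T.src (g (m - 1 + 0))) = κ (T.src (c j₁)) := by
    rw [g2 0 (by omega)]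
    have e0 : T.src (c j₁) = T.src (cy c n (j₁ + 0)) := by
      unfold cy
      rw [add_zero, Nat.mod_eq_of_lt hp.hj]
    rw [e0]
    rcases Nat.eq_zero_or_pos a with h | h
    · rw [nidx_ge (by omega), show 0 - a + a' = a' by omega, ← hMM, h]
    · rw [nidx_lt h]
  -- consecutive near elements
  have hnxt : ∀ k < N, κ (T.apex (cy c n (j₁ + nidx a a' k))) =
      if k + 1 < N then κ (T.src (cy c n (j₁ + nidx a a' (k + 1)))) else κ (T.src (f 1)) := by
    intro k hk
    rw [← cy_next hW.ring]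
    rcases Nat.lt_or_ge k a with h | h
    · rw [nidx_lt h]
      rcases Nat.lt_or_ge (k + 1) a with h3 | h3
      · rw [if_pos (by omega), nidx_lt h3, add_assoc]
      · have h4 : k + 1 = a := by omega
        rw [add_assoc, h4, hMM]
        split_ifs with h5
        · rw [nidx_ge (by omega), show a - a + a' = a' by omega]
        · rw [hxend, show a' = L by omega]
    · rw [nidx_ge h]
      split_ifs with h5
      · rw [nidx_ge (by omega)]
        congr 3
        omega
      · rw [hxend]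
        congr 3
        omega
  have hgs : ∀ i < m - 1 + N, T2.src (g (i + 1)) = T2.apex (g i) := by
    intro i hi
    change κ (T.src (g (i + 1))) = κ (T.apex (g i))
    rcases hsplit i hi with h | ⟨k, hk, rfl⟩
    · rw [g1 i h]
      rcases Nat.lt_or_ge (i + 1) (m - 1) with h3 | h3
      · rw [g1 (i + 1) h3, hp.next (i + 1) (by omega) (by omega)]
      · have h4 : i + 1 = m - 1 := by omega
        rw [h4, hp.stop, ← hfirst, add_zero]
    · rw [g2 k hk, hnxt k hk]
      split_ifs with h5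
      · rw [show m - 1 + k + 1 = m - 1 + (k + 1) by omega, g2 _ h5]
      · rw [show m - 1 + k + 1 = m - 1 + N by omega, g3]
  have hne' : ∀ i, i < m - 1 → ∀ k < N, κ (T.src (f (i + 1))) ≠
      κ (T.src (cy c n (j₁ + nidx a a' k))) := by
    intro i hi k hk h3
    rcases Nat.eq_zero_or_pos i with rfl | h4
    · exact hx _ (hid k hk).1 (hid k hk).2 h3
    · have h5 := hp.free (i + 1) (by omega) (by omega)
      apply h5
      rw [hfree _ h5] at h3
      rw [h3]; exact hfroz _ (hcyf _)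
  have hnidx : ∀ k l, k < N → l < N → nidx a a' k = nidx a a' l → k = l := by
    intro k l hk hl h
    rcases Nat.lt_or_ge k a with h3 | h3 <;> rcases Nat.lt_or_ge l a with h4 | h4
    · rwa [nidx_lt h3, nidx_lt h4] at h
    · rw [nidx_lt h3, nidx_ge h4] at h; omega
    · rw [nidx_ge h3, nidx_lt h4] at h; omega
    · rw [nidx_ge h3, nidx_ge h4] at h; omega
  have hinj : ∀ i < m - 1 + N, ∀ k < m - 1 + N, T2.src (g i) = T2.src (g k) → i = k := by
    intro i hi k hk h3
    change κ (T.src (g i)) = κ (T.src (g k)) at h3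
    rcases hsplit i hi with h | ⟨x, hx', rfl⟩ <;> rcases hsplit k hk with h' | ⟨z, hz, rfl⟩
    · rw [g1 i h, g1 k h'] at h3
      rcases Nat.eq_zero_or_pos i with hi0 | hi0 <;> rcases Nat.eq_zero_or_pos k with hk0 | hk0
      · omega
      · exfalso
        have h5 := hp.free (k + 1) (by omega) (by omega)
        apply h5
        rw [hfree _ h5, hi0] at h3
        rw [← h3]; exact hfroz _ hxf
      · exfalso
        have h5 := hp.free (i + 1) (by omega) (by omega)
        apply h5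
        rw [hfree _ h5, hk0] at h3
        rw [h3]; exact hfroz _ hxf
      · rw [hfree _ (hp.free (i + 1) (by omega) (by omega)),
          hfree _ (hp.free (k + 1) (by omega) (by omega))] at h3
        have := hp.inj _ _ (by omega) (by omega) (by omega) (by omega) h3
        omega
    · rw [g1 i h, g2 z hz] at h3
      exact absurd h3 (hne' i h z hz)
    · rw [g2 x hx', g1 k h'] at h3
      exact absurd h3.symm (hne' k h' x hx')
    · rw [g2 x hx', g2 z hz] at h3
      have := hnidx x z hx' hz (hone _ (hid x hx').1 _ (hid z hz).1 (hid x hx').2 (hid z hz).2 h3)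
      omega
  have hgmi : ∀ i < m - 1 + N, T2.Mi σ2 (g i) := by
    intro i hi
    rcases hsplit i hi with h | ⟨k, hk, rfl⟩
    · rw [g1 i h]; exact hmif (i + 1) (by omega) (by omega)
    · rw [g2 k hk]; exact hmi _ (hid k hk).1 (hid k hk).2
  have hgwk : ∀ i < m - 1 + N, ∃ l, T2.Walk (T2.tgt (g 0)) (T2.tgt (g i)) l ∧
      ∀ e ∈ l, σ2 (T2.src e) = σ2 (T2.tgt (g 0)) ∧ σ2 (T2.tgt e) = σ2 (T2.tgt (g 0)) := by
    intro i hi
    rw [g0]
    rcases hsplit i hi with h | ⟨k, hk, rfl⟩
    · rw [g1 i h]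
      obtain ⟨k, hk, hk'⟩ := hK (i + 1) (by omega) (by omega)
      have hb2 : T2.Bi σ2 (f 1) := (hmif 1 le_rfl (by omega)).bi
      refine ⟨T2.rw' σ2 (f 1) k, ?_, ?_⟩
      · have h3 := T2.rw_walk hb2 k
        have h4 : (T2.st σ2)^[k] (f 1) = f (i + 1) := by
          have h5 : T2.st σ2 = T.st (σ2 ∘ κ) := rfl
          rw [h5, hit k hk, hk']
        rwa [h4] at h3
      · intro e he
        obtain ⟨x, -, ha, hb⟩ := T2.rw_mem hb2 he
        rw [ha, hb]
        exact ⟨T2.col_tgt_iter σ2 (f 1) x, T2.col_tgt_iter σ2 (f 1) (x + 1)⟩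
    · rw [g2 k hk]; exact hwk _ (hid k hk).1 (hid k hk).2
  have hP2 : T2.Planar := H532.planar_tmap hW.planar
  have hnd : T2.apex (g 0) ≠ T2.src (g 0) := by
    intro h
    have h3 := hgs 0 (by omega)
    rw [h] at h3
    have h4 : 0 + 1 < m - 1 + N := by omega
    have := hinj 1 h4 0 (by omega) h3
    omega
  have key := cls_cycle hP2 (by omega) (by rw [g3, g0]) hgmi hgs hinj hnd hgwk Θ
  rw [g0] at key
  rw [key, Finset.sum_range_add]
  congr 1
  · rw [Finset.sum_Ico_eq_sum_range]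
    refine Finset.sum_congr rfl fun i hi => ?_
    rw [Finset.mem_range] at hi
    rw [g1 i hi, add_comm]
  · rw [hNdef, Finset.sum_range_add, Finset.sum_Ico_eq_sum_range]
    congr 1
    · refine Finset.sum_congr rfl fun k hk => ?_
      rw [Finset.mem_range] at hk
      rw [g2 k (by omega), nidx_lt hk]
    · refine Finset.sum_congr rfl fun k hk => ?_
      rw [Finset.mem_range] at hk
      rw [g2 (a + k) (by omega), nidx_ge (by omega)]
      congr 2
      omega

end Vale.Agent.P148.R2.H953
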