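import Vale.Agent.P148.R2.H953.CalWin
import Vale.Agent.P148.R2.H126.Sum

/-!
# P148, row CAL: windows of the class of the frozen face, from the near window of N4W

`Win` (helper126): the near window `(t2, t1)` of the strand with the far sets `F b1`, `F b2`, `F w`.
`Win.cut`: the part of the main cycle between two of its vertices, one of which is near: the middle
is collapsed, the rest consists of minority darts of the collapsed triangulation.
-/

open Function
open Vale.Agent.P148.R2.H258 Vale.Agent.P148.R2.H258.Tri Vale.Agent.P148.R2.H659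
  Vale.Agent.P148.R2.H871 Vale.Agent.P148.R2.H953 Vale.Agent.P148.R2.H251
  Vale.Agent.P148.R2.H126 Vale.Agent.P148.R2.H838 Vale.Agent.P148.R2.H203

namespace Vale.Agent.P148.R2.H953

variable {V V1 V3 D : Type*} {T : Tri V D} {π : V → V1} {O : V1} {σ : V → Bool} {c : ℕ → D}
  {n : ℕ} {τ : ℕ → ℕ} {ι : Type*} {F : ι → Set V} {r : ι → V} {b1 b2 w : ι}
  {m1 m2 t2 t1 q : ℕ}

section

variable (h : Win T π O σ c n τ F r b1 b2 w m1 m2 t2 t1 q)
include h

theorem _root_.Vale.Agent.P148.R2.H126.Win.w_ne {b : ι} (hb : b = b1 ∨ b = b2) : b ≠ w := by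
  rintro rfl
  have hb0 : T.Bi σ (c 0) := (h.ring.mi 0 h.ring.pos).bi
  have h9 := h.u0
  have h10 := h.black hb h9
  rw [T.col_tgt_iter σ] at h10
  exact hb0 h10.symm

/-- **Cut of a chain with a near end.** -/
theorem _root_.Vale.Agent.P148.R2.H126.Win.cut {σ2 : V → Bool}
    (h2 : ∀ v, π v = O → (∀ i, v ∉ F i) → σ2 v = σ v)
    (hb : ∀ b, b = b1 ∨ b = b2 → σ2 (r b) = σ (T.src (c 0)))
    (hw : σ2 (r w) ≠ σ (T.src (c 0))) {iy ix : ℕ} (hqy : q ≤ iy) (hyx : iy < ix) (hix : ix < n)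
    (hN : Near T F b1 b2 c iy ∨ Near T F b1 b2 c ix) :
    ∃ j j' b, iy ≤ j ∧ j ≤ j' ∧ j' ≤ ix ∧ (b = b1 ∨ b = b2) ∧ (iy < j ∨ j' < ix) ∧
      (∀ i, j ≤ i → i < j' → T.src (c i) ∈ F b ∧ T.apex (c i) ∈ F b) ∧
      (∀ i, iy ≤ i → i < ix → (i < j ∨ j' ≤ i) →
        (H532.tmap T (H532.col F r) h.coll.fib).Mi σ2 (c i) ∧ t2 ≤ τ i) ∧
      (∀ i, iy ≤ i → i < ix → (i < j ∨ j' ≤ i) → ∀ k, iy ≤ k → k < ix → (k < j ∨ j' ≤ k) →
        H532.col F r (T.src (c i)) = H532.col F r (T.src (c k)) → i = k) ∧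
      (∀ i, iy ≤ i → i < ix → (i < j ∨ j' ≤ i) →
        H532.col F r (T.src (c ix)) ≠ H532.col F r (T.src (c i))) ∧
      (∀ i, iy ≤ i → i < ix → (i < j ∨ j' ≤ i) ∨ (τ i < t2 ∨ t1 ≤ τ i)) := by
  classical
  have hR := h.ring
  have hb0 : T.Bi σ (c 0) := (hR.mi 0 hR.pos).bi
  have hcol : ∀ i < n, σ (T.src (c i)) = σ (T.src (c 0)) := by
    intro i hi
    obtain ⟨k, hk⟩ := hR.str i hi
    rw [← hk, T.col_src_iter σ]
  -- colour of a vertex frozen at most in `F b`
  have hcb : ∀ b, (b = b1 ∨ b = b2) → ∀ v, π v = O → σ v = σ (T.src (c 0)) →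
      (∀ i, v ∈ F i → i = b) → σ2 (H532.col F r v) = σ (T.src (c 0)) := by
    intro b hbb v hv1 hv2 hv3
    by_cases hv : ∃ i, v ∈ F i
    · obtain ⟨i, hi⟩ := hv
      rw [h.coll.col_mem hi, hv3 i hi, hb b hbb]
    · rw [H532.col_not_mem (not_exists.1 hv), h2 v hv1 (not_exists.1 hv), hv2]
  have htgt : ∀ i, i < n → ∀ i', T.tgt (c i) ∈ F i' → i' = w := by
    intro i hi i' hi'
    rw [← h.tm.it i hi] at hi'
    exact h.tgt_mem hi'
  have hct : ∀ i < n, σ2 (H532.col F r (T.tgt (c i))) ≠ σ (T.src (c 0)) := by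
    intro i hi
    by_cases hv : ∃ i', T.tgt (c i) ∈ F i'
    · obtain ⟨i', hi'⟩ := hv
      rw [h.coll.col_mem hi', htgt i hi i' hi']
      exact hw
    · rw [H532.col_not_mem (not_exists.1 hv), h2 _ (hR.fib hi).2.1 (not_exists.1 hv)]
      rw [← hcol i hi]
      exact (hR.mi i hi).1.symm
  have hmiW : ∀ b, (b = b1 ∨ b = b2) → ∀ i < n, (∀ i', T.src (c i) ∈ F i' → i' = b) →
      (∀ i', T.apex (c i) ∈ F i' → i' = b) →
      (H532.tmap T (H532.col F r) h.coll.fib).Mi σ2 (c i) := by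
    intro b hbb i hi h3 h4
    have hmi := hR.mi i hi
    obtain ⟨f1, f2, f3⟩ := hR.fib hi
    have e1 := hcb b hbb _ f1 (hcol i hi) h3
    have e2 := hcb b hbb _ f3 (by rw [hmi.2, hcol i hi]) h4
    refine ⟨?_, ?_⟩
    · change σ2 (H532.col F r (T.src (c i))) ≠ σ2 (H532.col F r (T.tgt (c i)))
      rw [e1]; exact (hct i hi).symm
    · change σ2 (H532.col F r (T.apex (c i))) = σ2 (H532.col F r (T.src (c i)))
      rw [e1, e2]
  by_cases hNy : Near T F b1 b2 c iy
  · -- the landing vertex is near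
    obtain ⟨j, hj1, hj2, hj3, hj4⟩ : ∃ j, iy ≤ j ∧ j ≤ ix ∧
        (∀ i, iy ≤ i → i < j → T.src (c i) ∉ F b1) ∧
        (j < ix → T.src (c j) ∈ F b1) := by
      by_cases hex : ∃ j, iy ≤ j ∧ j ≤ ix ∧ T.src (c j) ∈ F b1
      · refine ⟨Nat.find hex, (Nat.find_spec hex).1, (Nat.find_spec hex).2.1, ?_,
          fun _ => (Nat.find_spec hex).2.2⟩
        intro i h1 h3 h4
        have := Nat.find_spec hex
        exact Nat.find_min hex h3 ⟨h1, by omega, h4⟩
      · refine ⟨ix, hyx.le, le_rfl, ?_, fun hh => absurd hh (lt_irrefl _)⟩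
        intro i h1 h3 h4
        exact hex ⟨i, h1, h3.le, h4⟩
    have hn2 : ∀ i, iy ≤ i → i < n → T.src (c i) ∉ F b2 := by
      intro i h1 h3 h4
      exact hNy.2 (h.mono2 hqy h1 h3 h4)
    have hnear : ∀ i, iy ≤ i → i < j → Near T F b1 b2 c i := fun i h1 h3 =>
      ⟨hj3 i h1 h3, hn2 i h1 (by omega)⟩
    have hfar : ∀ i, j ≤ i → i ≤ ix → (j < ix ∨ T.src (c ix) ∈ F b1) → T.src (c i) ∈ F b1 := by
      intro i h1 h3 h4
      rcases h4 with h4 | h4
      · exact h.mono1 (by omega) h1 (by omega) (hj4 h4)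
      · have h5 : j = ix ∨ j < ix := by omega
        rcases h5 with h5 | h5
        · rw [show i = ix by omega]; exact h4
        · exact h.mono1 (by omega) h1 (by omega) (hj4 h5)
    have hor : ∀ i, iy ≤ i → i ≤ ix → ∀ i', T.src (c i) ∈ F i' → i' = b1 := by
      intro i h1 h3 i' hi'
      rcases h.all i' with h4 | h4 | h4
      · exact h4
      · rw [h4] at hi'
        exact absurd hi' (hn2 i h1 (by omega))
      · exfalso
        by_cases h5 : T.src (c i) ∈ F b1
        · have h6 := h.coll.disj _ _ _ h5 hi'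
          exact h.w_ne (Or.inl rfl) (h6.trans h4)
        · exact (h.near_time (by omega) (by omega) ⟨h5, hn2 i h1 (by omega)⟩).2.2.2.2 _ hi'
    have hjy : iy < j := by
      by_contra hcon
      have h5 : j = iy := by omega
      exact hNy.1 (h5 ▸ hj4 (by omega))
    refine ⟨j, ix, b1, hj1, hj2, le_rfl, Or.inl rfl, Or.inl hjy, ?_, ?_, ?_, ?_, ?_⟩
    · intro i h1 h3
      refine ⟨hfar i h1 h3.le (Or.inl (by omega)), ?_⟩
      rw [← hR.next i (by omega)]
      exact hfar (i + 1) (by omega) (by omega) (Or.inl (by omega))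
    · intro i h1 h3 h4
      have h5 : i < j := by omega
      refine ⟨hmiW b1 (Or.inl rfl) i (by omega) (hor i h1 (by omega)) ?_,
        (h.near_time (by omega) (by omega) (hnear i h1 h5)).2.2.1.le⟩
      intro i' hi'
      rw [← hR.next i (by omega)] at hi'
      exact hor (i + 1) (by omega) (by omega) i' hi'
    · intro i h1 h3 h4 k h5 h6 h7 h8
      have e1 := (h.near_time (by omega) (by omega) (hnear i h1 (by omega))).2.2.2.2
      have e2 := (h.near_time (by omega) (by omega) (hnear k h5 (by omega))).2.2.2.2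
      rw [H532.col_not_mem e1, H532.col_not_mem e2] at h8
      exact hR.inj i (by omega) k (by omega) h8
    · intro i h1 h3 h4 h5
      have e1 := (h.near_time (by omega) (by omega) (hnear i h1 (by omega))).2.2.2.2
      rcases h.coll.eq_or h5 with h6 | ⟨i', -, h6⟩
      · have := hR.inj ix hix i (by omega) h6
        omega
      · exact e1 i' h6
    · intro i h1 h3
      by_cases h4 : i < j
      · exact Or.inl (Or.inl h4)
      · right; right
        exact (h.src_mem1 (by omega) (by omega)).1 (hfar i (by omega) (by omega) (Or.inl (by omega)))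
  · -- the landing vertex is far, the start is near
    have hNx : Near T F b1 b2 c ix := hN.resolve_left hNy
    have hn1 : ∀ i, q ≤ i → i ≤ ix → T.src (c i) ∉ F b1 := by
      intro i h1 h3 h4
      exact hNx.1 (h.mono1 h1 h3 hix h4)
    have hy2 : T.src (c iy) ∈ F b2 := by
      by_contra h4
      exact hNy ⟨hn1 iy hqy hyx.le, h4⟩
    obtain ⟨j, hj1, hj2, hj3, hj4⟩ : ∃ j, iy ≤ j ∧ j < ix ∧ T.src (c j) ∈ F b2 ∧
        ∀ i, j < i → i ≤ ix → T.src (c i) ∉ F b2 := by
      have hPi : (fun t => t ≤ ix ∧ T.src (c t) ∈ F b2) iy := ⟨hyx.le, hy2⟩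
      have h3 := Nat.findGreatest_spec (P := fun t => t ≤ ix ∧ T.src (c t) ∈ F b2) hyx.le hPi
      refine ⟨Nat.findGreatest (fun t => t ≤ ix ∧ T.src (c t) ∈ F b2) ix,
        Nat.le_findGreatest hyx.le hPi, ?_, h3.2, ?_⟩
      · rcases h3.1.lt_or_eq with h4 | h4
        · exact h4
        · exfalso
          apply hNx.2
          have := h3.2
          rwa [h4] at this
      · intro i h4 h5 h6
        exact Nat.findGreatest_is_greatest (P := fun t => t ≤ ix ∧ T.src (c t) ∈ F b2) h4 h5 ⟨h5, h6⟩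
    have hnear : ∀ i, j < i → i ≤ ix → Near T F b1 b2 c i := fun i h1 h3 =>
      ⟨hn1 i (by omega) h3, hj4 i h1 h3⟩
    have hfar : ∀ i, q ≤ i → i ≤ j → T.src (c i) ∈ F b2 := fun i h1 h3 =>
      h.mono2 h1 h3 (by omega) hj3
    have hor : ∀ i, q ≤ i → i ≤ ix → ∀ i', T.src (c i) ∈ F i' → i' = b2 := by
      intro i h1 h3 i' hi'
      rcases h.all i' with h4 | h4 | h4
      · rw [h4] at hi'
        exact absurd hi' (hn1 i h1 h3)
      · exact h4
      · exfalso
        by_cases h5 : i ≤ j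
        · have h6 := h.coll.disj _ _ _ (hfar i h1 h5) hi'
          exact h.w_ne (Or.inr rfl) (h6.trans h4)
        · exact (h.near_time (by omega) (by omega) (hnear i (by omega) h3)).2.2.2.2 _ hi'
    have htime : ∀ i, j < i → i ≤ ix → t2 ≤ τ (i - 1) ∧ t2 < τ i ∧ τ i < t1 := by
      intro i h1 h3
      have := h.near_time (by omega) (by omega) (hnear i h1 h3)
      exact ⟨this.2.1, this.2.2.1, this.2.2.2.1⟩
    have hjt : t2 ≤ τ j := by
      have := (htime (j + 1) (by omega) (by omega)).1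
      rwa [Nat.add_sub_cancel] at this
    refine ⟨iy, j, b2, le_rfl, hj1, hj2.le, Or.inr rfl, Or.inr hj2, ?_, ?_, ?_, ?_, ?_⟩
    · intro i h1 h3
      refine ⟨hfar i (by omega) (by omega), ?_⟩
      rw [← hR.next i (by omega)]
      exact hfar (i + 1) (by omega) (by omega)
    · intro i h1 h3 h4
      have h5 : j ≤ i := by omega
      refine ⟨hmiW b2 (Or.inr rfl) i (by omega) (hor i (by omega) (by omega)) ?_, ?_⟩
      · intro i' hi'
        rw [← hR.next i (by omega)] at hi'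
        exact hor (i + 1) (by omega) (by omega) i' hi'
      · rcases h5.eq_or_lt with rfl | h6
        · exact hjt
        · exact (htime i h6 (by omega)).2.1.le
    · intro i h1 h3 h4 k h5 h6 h7 h8
      rcases h.coll.eq_or h8 with h9 | ⟨i', h9, h10⟩
      · exact hR.inj i (by omega) k (by omega) h9
      · have e1 : i = j := by
          by_contra h11
          exact (h.near_time (by omega) (by omega) (hnear i (by omega)
            (by omega))).2.2.2.2 _ h9
        have e2 : k = j := by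
          by_contra h11
          exact (h.near_time (by omega) (by omega) (hnear k (by omega)
            (by omega))).2.2.2.2 _ h10
        omega
    · intro i h1 h3 h4 h5
      have e1 := (h.near_time (by omega) (by omega) hNx).2.2.2.2
      rcases h.coll.eq_or h5 with h6 | ⟨i', h6, -⟩
      · have := hR.inj ix hix i (by omega) h6
        omega
      · exact e1 i' h6
    · intro i h1 h3
      by_cases h4 : j ≤ i
      · exact Or.inl (Or.inr h4)
      · right; left
        have h5 := hfar (i + 1) (by omega) (by omega)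
        rw [h.src_mem2 (by omega) (by omega)] at h5
        rcases h5 with h5 | h5
        · omega
        · rwa [Nat.add_sub_cancel] at h5

end

/-! ### the window of the class of the frozen face -/

section

variable {T3 : Tri V3 D} {w0 : V → Bool} {s₁ s₂ : ℕ} {S : Fin 3 → Set V} {π3 : V → V3}
  {lab : Fin 3 → V3}

/-- **The windows of the class `K` of a dart `q` of the frozen face.** The main cycle is numbered
from `e`; `Θ` vanishes on the members of the cycle which are far. -/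
theorem _root_.Vale.Agent.P148.R2.H251.W3.window_le [Fintype D]
    (hW : W3 T T3 π O w0 c n s₁ s₂ S π3 lab) {σ : V3 → Bool} {q : D} {α β : Fin 3} {m : ℕ}
    {f : ℕ → D} {j₁ i₁ : ℕ} (hp : Path3 T T3 π O c n s₁ s₂ σ q α β m f j₁ i₁) {e q₀ : ℕ}
    (h : Win T π O w0 (fun k => cy c n (e + k)) n τ F r b1 b2 w m1 m2 t2 t1 q₀) {iy : ℕ}
    (he : (e + iy) % n = j₁) (hq : q₀ ≤ iy) (hL0 : 0 < gapL n j₁ i₁)
    (hL : iy + gapL n j₁ i₁ < n)
    (hN : Near T F b1 b2 (fun k => cy c n (e + k)) iy ∨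
      Near T F b1 b2 (fun k => cy c n (e + k)) (iy + gapL n j₁ i₁)) {σ2 : V → Bool}
    (h2 : ∀ v, π v = O → (∀ i, v ∉ F i) → σ2 v = w0 v)
    (hb : ∀ b, b = b1 ∨ b = b2 → σ2 (r b) = w0 (T.src (cy c n (e + 0))))
    (hw : σ2 (r w) ≠ w0 (T.src (cy c n (e + 0))))
    (hσ : σ (T3.src q) = w0 (T.src (cy c n (e + 0)))) {K : ℕ}
    (hK : ∀ i, 1 ≤ i → i < m → ∃ k ≤ K, (T3.st σ)^[k] (f 1) = f i)
    (hag : ∀ k ≤ K, σ2 (H532.col F r (T.src ((T3.st σ)^[k] (f 1)))) =
        σ (T3.src ((T3.st σ)^[k] (f 1))) ∧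
      σ2 (H532.col F r (T.tgt ((T3.st σ)^[k] (f 1)))) = σ (T3.tgt ((T3.st σ)^[k] (f 1))))
    (hwhite : ∃ l, (H532.tmap T (H532.col F r) h.coll.fib).Walk (H532.col F r (T.tgt (f 1)))
      (H532.col F r (T.tgt ((T.st w0)^[t2] (cy c n (e + 0))))) l ∧ ∀ g ∈ l,
        σ2 (H532.col F r (T.src g)) = σ2 (H532.col F r (T.tgt (f 1))) ∧
          σ2 (H532.col F r (T.tgt g)) = σ2 (H532.col F r (T.tgt (f 1))))
    {Θ : D → ℂ} (hΘq : Θ q = 0)
    (hΘ : ∀ i, q₀ ≤ i → i < n → (τ i < t2 ∨ t1 ≤ τ i) → Θ (cy c n (e + i)) = 0) :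
    ‖∑ k ∈ Finset.range (gapL n j₁ i₁), Θ (cy c n (j₁ + k))‖ ^ 2 ≤
      2 * ‖(H532.tmap T (H532.col F r) h.coll.fib).cls σ2 (f 1) Θ‖ ^ 2 +
        2 * ‖T3.cls σ q Θ‖ ^ 2 := by
  classical
  set c' : ℕ → D := fun k => cy c n (e + k) with hc'
  set L := gapL n j₁ i₁ with hLdef
  set κ := H532.col F r with hκ
  set b₀ := w0 (T.src (c' 0)) with hb₀
  have hcc : ∀ k, cy c n (j₁ + k) = c' (iy + k) := by
    intro k
    simp only [hc', cy]
    congr 1
    rw [← he, Nat.mod_add_mod, add_assoc]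
  obtain ⟨j, j', b, a1, a2, a3, a4, a5, a6, a7, a8, a9, a10⟩ :=
    h.cut h2 hb hw hq (show iy < iy + L by omega) hL hN
  have hR := h.ring
  have hne : ∀ b, b = b1 ∨ b = b2 → b ≠ w := fun b hb => h.w_ne hb
  have hcol : ∀ i < n, w0 (T.src (c' i)) = b₀ := by
    intro i hi
    obtain ⟨k, hk⟩ := hR.str i hi
    rw [← hk, T.col_src_iter w0]
  have hbi1 : T3.Bi σ (f 1) := (hp.mi3 1 (by have := hp.two; omega)).bi
  have hsrc1 : σ (T3.src (f 1)) = b₀ := by
    rw [(T3.rel_col ((hp.rel (f 1)).2 ⟨1, by have := hp.two; omega, rfl⟩)).1]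
    exact hσ
  have htgt1 : σ2 (κ (T.tgt (f 1))) ≠ b₀ := by
    have := (hag 0 (Nat.zero_le _)).2
    rw [iterate_zero, id] at this
    rw [this, ← hsrc1]
    exact hbi1.symm
  have bne : ∀ {x y z : Bool}, x ≠ z → y ≠ z → x = y := by decide
  have hycol : σ2 (κ (T.src (c j₁))) = σ (T3.src q) := by
    have e0 : T.src (c j₁) = T.src (c' iy) := by
      have h3 := hcc 0
      simp only [add_zero] at h3
      rw [← h3]
      unfold cy
      rw [Nat.mod_eq_of_lt hp.hj]
    rw [e0, hσ]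
    by_cases h3 : Near T F b1 b2 c' iy
    · have h4 := (h.near_time hq (by omega) h3).2.2.2.2
      rw [hκ, H532.col_not_mem h4, h2 _ (hR.fib (by omega)).1 h4]
      exact hcol iy (by omega)
    · unfold Near at h3
      rw [not_and_or, not_not, not_not] at h3
      rcases h3 with h3 | h3
      · rw [hκ, h.coll.col_mem h3]; exact hb _ (Or.inl rfl)
      · rw [hκ, h.coll.col_mem h3]; exact hb _ (Or.inr rfl)
  have hwk : ∀ i, i < n → t2 ≤ τ i →
      ∃ l, (H532.tmap T κ h.coll.fib).Walk (κ (T.tgt (f 1))) (κ (T.tgt (c' i))) l ∧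
        ∀ g ∈ l, σ2 (κ (T.src g)) = σ2 (κ (T.tgt (f 1))) ∧
          σ2 (κ (T.tgt g)) = σ2 (κ (T.tgt (f 1))) := by
    intro i hi hti
    obtain ⟨l1, h3, h4⟩ := hwhite
    -- the right walk of the loop
    have hb0 : T.Bi w0 (c' 0) := (hR.mi 0 hR.pos).bi
    have hbt : T.Bi w0 ((T.st w0)^[t2] (c' 0)) := (T.bi_iter t2).2 hb0
    have h5 := T.rw_walk hbt (τ i - t2)
    rw [← iterate_add_apply, show τ i - t2 + t2 = τ i by omega, h.tm.it i hi] at h5
    have h6 := walk_contr (T2 := H532.tmap T κ h.coll.fib) H532.tmap_contr h5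
    refine ⟨l1 ++ _, h3.append h6, ?_⟩
    intro g hg
    rcases List.mem_append.1 hg with hg | hg
    · exact h4 g hg
    · obtain ⟨k, -, e1, e2⟩ := T.rw_mem hbt hg
      rw [← iterate_add_apply] at e1 e2
      have h7 : ∀ t, σ2 (κ (T.tgt ((T.st w0)^[t] (c' 0)))) ≠ b₀ := by
        intro t
        by_cases hv : ∃ i', T.tgt ((T.st w0)^[t] (c' 0)) ∈ F i'
        · obtain ⟨i', hi'⟩ := hv
          rw [hκ, h.coll.col_mem hi', h.tgt_mem hi']
          exact hw
        · rw [hκ, H532.col_not_mem (not_exists.1 hv), h2 _ (hR.seen t).2 (not_exists.1 hv),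
            T.col_tgt_iter w0]
          exact hb0.symm
      rw [e1, e2]
      exact ⟨bne (h7 _) htgt1, bne (h7 _) htgt1⟩
  have hcond : ∀ k, (k < j - iy ∨ j' - iy ≤ k) ↔ (iy + k < j ∨ j' ≤ iy + k) := by
    intro k; omega
  have key := hW.window3 hp h.coll h.fibF hK hag hycol (a := j - iy) (a' := j' - iy) (b := b)
    (by omega) (by omega) (by omega) ?_ ?_ ?_ ?_ ?_ Θ
  · -- conclusion
    have h3 : ∑ k ∈ Finset.range L, Θ (cy c n (j₁ + k)) =
        ∑ k ∈ Finset.range (j - iy), Θ (cy c n (j₁ + k)) +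
        ∑ k ∈ Finset.Ico (j' - iy) L, Θ (cy c n (j₁ + k)) := by
      rw [Finset.range_eq_Ico, ← Finset.sum_Ico_consecutive _ (Nat.zero_le (j - iy))
        (show j - iy ≤ L by omega), ← Finset.sum_Ico_consecutive _
        (show j - iy ≤ j' - iy by omega) (show j' - iy ≤ L by omega), ← Finset.range_eq_Ico]
      have hz : ∑ k ∈ Finset.Ico (j - iy) (j' - iy), Θ (cy c n (j₁ + k)) = 0 := by
        apply Finset.sum_eq_zero
        intro k hk
        rw [Finset.mem_Ico] at hk
        rw [hcc]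
        rcases a10 (iy + k) (by omega) (by omega) with h4 | h4
        · omega
        · exact hΘ _ (by omega) (by omega) h4
      rw [hz, zero_add]
    have h4 : T3.cls σ q Θ = ∑ i ∈ Finset.Ico 1 m, Θ (f i) := by
      have := hp.cls_eq Θ hΘq
      convert this
    rw [h3]
    have h5 : (H532.tmap T κ h.coll.fib).cls σ2 (f 1) Θ = T3.cls σ q Θ +
        (∑ k ∈ Finset.range (j - iy), Θ (cy c n (j₁ + k)) +
        ∑ k ∈ Finset.Ico (j' - iy) L, Θ (cy c n (j₁ + k))) := by
      rw [h4]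
      convert key
    set X := ∑ k ∈ Finset.range (j - iy), Θ (cy c n (j₁ + k)) +
        ∑ k ∈ Finset.Ico (j' - iy) L, Θ (cy c n (j₁ + k)) with hX
    have h6 : X = (H532.tmap T κ h.coll.fib).cls σ2 (f 1) Θ + -T3.cls σ q Θ := by
      rw [h5]; ring
    rw [h6]
    have := sq_add_le ((H532.tmap T κ h.coll.fib).cls σ2 (f 1) Θ) (-T3.cls σ q Θ)
    rwa [norm_neg] at this
  · intro k h3 h4
    rw [hcc]
    exact a6 (iy + k) (by omega) (by omega)
  · intro k h3 h4
    rw [hcc]
    exact (a7 (iy + k) (by omega) (by omega) ((hcond k).1 h4)).1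
  · intro k h3 h4
    rw [hcc]
    exact hwk _ (by omega) (a7 (iy + k) (by omega) (by omega) ((hcond k).1 h4)).2
  · intro k h3 l h4 h5 h6 h7
    rw [hcc, hcc] at h7
    have := a8 (iy + k) (by omega) (by omega) ((hcond k).1 h5) (iy + l) (by omega) (by omega)
      ((hcond l).1 h6) h7
    omega
  · intro k h3 h4
    have e1 : T.src (f 1) = T.src (c' (iy + L)) := by
      rw [hp.start, ← hcc]
      unfold cy
      rw [hLdef, gapL_end hp.hi hp.hj]
    rw [hcc, e1]
    exact a9 (iy + k) (by omega) (by omega) ((hcond k).1 h4)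

end

end Vale.Agent.P148.R2.H953
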